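import Crest.Agent.N067.H.Hardy

/-!
# Row 67, block MI (helper39): the pointwise quadratic form (`γ = 11/10`, `c' = 6/5`)
-/

set_option autoImplicit false

open InnerProductSpace
open scoped RealInnerProductSpace Gradient

namespace Crest.Agent.N067.H

open Crest.Agent.R077

noncomputable section

section general

variable {E : Type*} [NormedAddCommGroup E] [InnerProductSpace ℝ E]

theorem quad_vec (P Q : E) {a β μ : ℝ} (hμ : 0 < μ) (h : β ^ 2 ≤ a * μ) :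
    0 ≤ a * ‖P‖ ^ 2 + 2 * β * ⟪P, Q⟫ + μ * ‖Q‖ ^ 2 := by
  have h1 := sq_nonneg ‖β • P + μ • Q‖
  rw [norm_add_sq_real, norm_smul, norm_smul, real_inner_smul_left, real_inner_smul_right, mul_pow,
    mul_pow, Real.norm_eq_abs, Real.norm_eq_abs, sq_abs, sq_abs] at h1
  have h2 : β ^ 2 * ‖P‖ ^ 2 ≤ a * μ * ‖P‖ ^ 2 := by gcongr
  refine nonneg_of_mul_nonneg_right (a := μ) ?_ hμ
  nlinarith

/-- the admissible triples of the design -/
structure Adm (a b s : ℝ) : Prop where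
  h1 : 106 / 100 * (11 / 5 * s - b) ^ 2 ≤ a - s ^ 2
  h2 : s ^ 2 ≤ 10 * (a - s ^ 2)
  h3 : b ^ 2 ≤ 10 * (a - s ^ 2)
  h4 : (b - s) ^ 2 ≤ 5 * (a - s ^ 2)
  b0 : 0 ≤ b
  s0 : 0 ≤ s

theorem Adm.nonneg {a b s : ℝ} (h : Adm a b s) : 0 ≤ a - s ^ 2 := by
  nlinarith [h.h2, sq_nonneg s]

theorem Adm.mono {a a' b s : ℝ} (h : Adm a b s) (ha : a ≤ a') : Adm a' b s :=
  ⟨by linarith [h.h1], by linarith [h.h2], by linarith [h.h3], by linarith [h.h4], h.b0, h.s0⟩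

/-- the form on the tangential (`θ = 1 - t/2`) or normal (`θ = t/2`) components -/
def qf (a b s ε θ : ℝ) (X L U : E) : ℝ :=
  (a - (1 + ε) * s ^ 2) * ‖X‖ ^ 2 + 2 * (11 / 10 * ((1 + ε + 6 / 5 * θ) * s - b)) * ⟪X, L⟫ -
    ((1 + ε) * (121 / 100) + 693 / 125 * θ) * ‖L‖ ^ 2 + 2 * (b - (1 + ε) * s) * ⟪X, U⟫ +
    2 * ((1 + ε) * (11 / 10) + 33 / 25 * θ) * ⟪L, U⟫ - (1 + ε) * ‖U‖ ^ 2

theorem qf_ge {a b s ε θ m : ℝ} (X L U : E) (h : Adm a b s) (hε0 : 0 ≤ ε) (hε : ε ≤ 1 / 10000)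
    (hθ0 : 0 ≤ θ) (hθ : θ ≤ 1) (hm0 : 0 < m)
    (hm : ((1 + ε + 6 / 5 * θ) * s - b) ^ 2 ≤ m * (a - s ^ 2))
    (hm2 : 1214 / 1000 * m + 693 / 125 * θ ≤ 6693 / 1000) :
    1 / 1000 * (a - s ^ 2) * ‖X‖ ^ 2 - 7905 / 1000 * ‖L‖ ^ 2 - 20000 * ‖U‖ ^ 2 ≤
      qf a b s ε θ X L U := by
  have hA := h.nonneg
  have k1 := quad_vec X L (a := 997 / 1000 * (a - s ^ 2))
    (β := 11 / 10 * ((1 + ε + 6 / 5 * θ) * s - b)) (μ := 1214 / 1000 * m) (by positivity) (by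
      have := mul_nonneg hm0.le hA
      nlinarith)
  have k2 := quad_vec X U (a := 1 / 1000 * (a - s ^ 2)) (β := b - (1 + ε) * s) (μ := 11000)
    (by norm_num) (by
      have h1 : 0 ≤ (1 + ε) * s := mul_nonneg (by linarith) h.s0
      have h2 : ((1 + ε) * s) ^ 2 ≤ 11 * (a - s ^ 2) := by
        have : (1 + ε) ^ 2 ≤ 11 / 10 := by nlinarith
        have h3 : (1 + ε) ^ 2 * s ^ 2 ≤ 11 / 10 * s ^ 2 := by gcongr
        nlinarith [h.h2]
      have h4 := h.h3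
      have h5 := h.b0
      rcases le_total b ((1 + ε) * s) with h6 | h6 <;> nlinarith)
  have k3 := quad_vec L U (a := 1 / 1000) (β := (1 + ε) * (11 / 10) + 33 / 25 * θ) (μ := 6250)
    (by norm_num) (by
      have h1 : (1 + ε) * (11 / 10) + 33 / 25 * θ ≤ 5 / 2 := by linarith
      have h2 : 0 ≤ (1 + ε) * (11 / 10) + 33 / 25 * θ := by positivity
      nlinarith)
  have p1 : ε * s ^ 2 * ‖X‖ ^ 2 ≤ 1 / 1000 * (a - s ^ 2) * ‖X‖ ^ 2 := by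
    gcongr ?_ * _
    nlinarith [h.h2, sq_nonneg s]
  have p2 : (1214 / 1000 * m + 1 / 1000 + ((1 + ε) * (121 / 100) + 693 / 125 * θ)) * ‖L‖ ^ 2 ≤
      7905 / 1000 * ‖L‖ ^ 2 := by gcongr; linarith
  have p3 : ε * ‖U‖ ^ 2 ≤ 1 * ‖U‖ ^ 2 := by gcongr; linarith
  have p4 := sq_nonneg ‖U‖
  unfold qf
  nlinarith

theorem sq_pert {B η s A m : ℝ} (hA : 0 ≤ A) (h1 : B ^ 2 ≤ m * A) (h2 : s ^ 2 ≤ 10 * A)
    (hη : |η| ≤ 2 / 10000) : (B + η * s) ^ 2 ≤ (1001 / 1000 * m + 5 / 10000) * A := by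
  have h3 : η ^ 2 ≤ (2 / 10000) ^ 2 := by rw [← sq_abs]; gcongr
  have h4 : η ^ 2 * s ^ 2 ≤ (2 / 10000) ^ 2 * (10 * A) := by gcongr
  nlinarith [sq_nonneg (B - 1000 * (η * s))]

end general

variable {n : ℕ}

/-- **the pointwise form**: weak inequality - stability cost + Hardy identity -/
theorem quad (v : EE n → ℝ) (x : EE n) (ht0 : 0 ≤ tt v x) (ht : tt v x ≤ 1 / 10000)
    {a b s ε σ trc : ℝ} (X L U : EE n) (h : Adm a b s) (hε0 : 0 ≤ ε) (hε : ε ≤ 1 / 10000)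
    (hL : ‖L‖ ^ 2 ≤ σ) (htr : 6 - 5 / 2 * tt v x ≤ trc) :
    1 / 1000 * (a - s ^ 2) * ‖X‖ ^ 2 + 1 / 100 * σ - 20000 * ‖U‖ ^ 2 ≤
      a * ‖X‖ ^ 2 + 2 * b * ⟪X, (-(11 / 10 : ℝ)) • L + U⟫ -
        (1 + ε) * ‖s • X + ((-(11 / 10 : ℝ)) • L + U)‖ ^ 2 +
        33 / 25 * (sf v x ((2 * s) • X + (2 : ℝ) • ((-(11 / 10 : ℝ)) • L + U)) L + trc * σ -
          2 * sf v x L L) := by
  have hA := h.nonneg
  set N := ‖∇ (dd v) x‖ with hN
  have hN2 : N ^ 2 = 1 - tt v x := by rw [tt]; ring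
  have hN0 : 0 < N := lt_of_le_of_ne (norm_nonneg _) fun e => by rw [← e] at hN2; linarith
  set ν : EE n := N⁻¹ • ∇ (dd v) x with hν
  have hν1 : ⟪ν, ν⟫ = 1 := by
    rw [real_inner_self_eq_norm_sq, hν, norm_smul, norm_inv, Real.norm_of_nonneg hN0.le, ← hN,
      inv_mul_cancel₀ hN0.ne', one_pow]
  have hg : ∀ p, ⟪∇ (dd v) x, p⟫ = N * ⟪ν, p⟫ := fun p => by
    rw [hν, real_inner_smul_left]; field_simp
  have hT : ∀ p q : EE n, ⟪p - ⟪ν, p⟫ • ν, q - ⟪ν, q⟫ • ν⟫ = ⟪p, q⟫ - ⟪ν, p⟫ * ⟪ν, q⟫ :=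
    fun p q => by
      simp only [inner_sub_left, inner_sub_right, real_inner_smul_left, real_inner_smul_right, hν1,
        real_inner_comm ν p]
      ring
  have q1 := qf_ge (X - ⟪ν, X⟫ • ν) (L - ⟪ν, L⟫ • ν) (U - ⟪ν, U⟫ • ν) h hε0 hε
    (θ := 1 - tt v x / 2) (m := 1001 / 1000 * (100 / 106) + 5 / 10000) (by linarith) (by linarith)
    (by norm_num) (by
      have := sq_pert (B := 11 / 5 * s - b) (η := ε - 3 / 5 * tt v x) (m := 100 / 106) hA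
        (by linarith [h.h1]) h.h2 (abs_le.2 ⟨by linarith, by linarith⟩)
      refine le_trans (le_of_eq ?_) this
      ring) (by linarith)
  have q2 := qf_ge (E := ℝ) ⟪ν, X⟫ ⟪ν, L⟫ ⟪ν, U⟫ h hε0 hε
    (θ := tt v x / 2) (m := 1001 / 1000 * 5 + 5 / 10000) (by linarith) (by linarith)
    (by norm_num) (by
      have := sq_pert (B := s - b) (η := ε + 3 / 5 * tt v x) (m := 5) hA
        (by nlinarith [h.h4]) h.h2 (abs_le.2 ⟨by linarith, by linarith⟩)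
      refine le_trans (le_of_eq ?_) this
      ring) (by linarith)
  have hσ : 0 ≤ σ := (sq_nonneg _).trans hL
  have p1 : (6 - 5 / 2 * (1 / 10000)) * σ ≤ trc * σ := by gcongr; linarith
  simp only [qf, ← real_inner_self_eq_norm_sq, hT] at q1
  simp only [qf, Real.norm_eq_abs, sq_abs, RCLike.inner_apply, conj_trivial] at q2
  rw [← real_inner_self_eq_norm_sq L] at hL
  simp only [sf, hg, ← real_inner_self_eq_norm_sq, inner_add_left, inner_add_right,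
    real_inner_smul_left, real_inner_smul_right, real_inner_comm X L, real_inner_comm X U,
    real_inner_comm L U]
  have e1 : ∀ y z : ℝ, N * y * (N * z) = (1 - tt v x) * (y * z) := fun y z => by
    rw [← hN2]; ring
  simp only [e1]
  nlinarith

end

end Crest.Agent.N067.H
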