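import Crest.Agent.N067.V.Weak2
import Crest.Agent.N067.A.Dual
import Crest.Agent.N067.A.Modica
import Crest.Agent.N067.X7.Weak
import Crest.Agent.N067.K.Lay

/-!
# Row 67, block MI (helper39): divergence theorem for Lipschitz fields, stress tensor, Hardy

`S = ψ² ((1 - t/2) I - n ⊗ n) = 2 (e I - ∇v ⊗ ∇v)` is divergence free and positive semidefinite.
-/

set_option autoImplicit false

open MeasureTheory Laplacian InnerProductSpace Topology Filter Set
open scoped RealInnerProductSpace Gradient ContDiff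

namespace Crest.Agent.N067.H

open Crest.Agent.R077

noncomputable section

variable {n : ℕ}

theorem integral_pdv_lip {g : EE n → ℝ} (hg : LocallyLipschitzOn univ g)
    (hc : HasCompactSupport g) (i : Fin n) : Integrable (pdv i g) ∧ ∫ x, pdv i g x = 0 := by
  obtain ⟨K, hK⟩ := V.exists_lip isOpen_univ hg hc (subset_univ _)
  refine ⟨V.integrable_pdv hK hc i, ?_⟩
  have h1 := (LipschitzWith.const (α := EE n) (1 : ℝ)).integral_lineDeriv_mul_eq (μ := volume)
    hK hc (-ev i)
  simp only [lineDeriv, deriv_const, zero_mul, integral_zero, neg_neg, mul_one] at h1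
  rw [h1]
  refine integral_congr_ae ?_
  filter_upwards [hK.ae_differentiableAt (μ := volume)] with x hx
  exact hx.lineDeriv_eq_fderiv.symm

/-- ONE-SIDED DIVERGENCE THEOREM for locally Lipschitz fields -/
theorem divL_le {X : Fin n → EE n → ℝ} {h : EE n → ℝ} (hX : ∀ i, LocallyLipschitzOn univ (X i))
    (hi : ∀ i, Integrable (X i)) (hh : Integrable h) (hle : ∀ᵐ x, h x ≤ ∑ i, pdv i (X i) x) :
    ∫ x, h x ≤ 0 := by
  obtain ⟨η, C, hC, hη, hs, hb, hp, he⟩ := Ker.exists_cutoff n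
  have hη1 : ∀ k, ContDiff ℝ 1 (η k) := fun k => contDiff_infty.1 (hη k) 1
  have hI : ∀ k i, Integrable fun x => X i x * pdv i (η k) x := fun k i =>
    (hi i).mul_bdd (c := C) (St.continuous_pdv (hη1 k) i).aestronglyMeasurable
      (ae_of_all _ fun x => hp k i x)
  have h1 : ∀ k, ∫ x, h x * η k x ≤ -∑ i, ∫ x, X i x * pdv i (η k) x := by
    intro k
    have e := fun i => integral_pdv_lip (g := fun x => X i x * η k x)
      (V.ll_mul (hX i) (V.ll_of_contDiffAt fun x _ => (hη1 k).contDiffAt)) (hs k).mul_left i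
    have e2 : ∀ i, ∫ x, (pdv i (fun x => X i x * η k x) x - X i x * pdv i (η k) x) =
        -∫ x, X i x * pdv i (η k) x := fun i => by
      rw [integral_sub (e i).1 (hI k i), (e i).2, zero_sub]
    rw [← Finset.sum_neg_distrib, ← Finset.sum_congr rfl fun i _ => e2 i,
      ← integral_finsetSum (f := fun i x => pdv i (fun x => X i x * η k x) x -
        X i x * pdv i (η k) x) _ fun i _ => (e i).1.sub (hI k i)]
    refine integral_mono_ae (hh.mul_bdd (c := 1) (hη k).continuous.aestronglyMeasurable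
      (ae_of_all _ fun x => by rw [Real.norm_eq_abs, abs_of_nonneg (hb k x).1]; exact (hb k x).2))
      (integrable_finsetSum _ fun i _ => (e i).1.sub (hI k i)) ?_
    filter_upwards [hle, eventually_all.2 fun i => V.ae_diff isOpen_univ (hX i)] with x hx hd
    refine (mul_le_mul_of_nonneg_right hx (hb k x).1).trans (le_of_eq ?_)
    rw [Finset.sum_mul]
    refine Finset.sum_congr rfl fun i _ => ?_
    rw [pdv_mul (hd i (mem_univ x)) ((hη1 k).differentiable (by simp) x)]
    ring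
  have h2 : Tendsto (fun k => ∫ x, h x * η k x) atTop (𝓝 (∫ x, h x)) := by
    refine tendsto_integral_of_dominated_convergence (fun x => ‖h x‖)
      (fun k => hh.1.mul (hη k).continuous.aestronglyMeasurable) hh.norm
      (fun k => ae_of_all _ fun x => ?_) (ae_of_all _ fun x => ?_)
    · rw [norm_mul]
      refine mul_le_of_le_one_right (norm_nonneg _) ?_
      rw [Real.norm_eq_abs, abs_of_nonneg (hb k x).1]
      exact (hb k x).2
    · refine tendsto_const_nhds.congr' ?_
      filter_upwards [he x] with k hk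
      rw [hk.eq_of_nhds, mul_one]
  have h3 : ∀ i, Tendsto (fun k => ∫ x, X i x * pdv i (η k) x) atTop (𝓝 0) := by
    intro i
    have := tendsto_integral_of_dominated_convergence (μ := volume)
      (F := fun k x => X i x * pdv i (η k) x) (f := fun _ => 0) (fun x => ‖X i x‖ * C)
      (fun k => (hI k i).1) ((hi i).norm.mul_const C) (fun k => ae_of_all _ fun x => ?_)
      (ae_of_all _ fun x => ?_)
    · simpa using this
    · rw [norm_mul]
      exact mul_le_mul_of_nonneg_left (hp k i x) (norm_nonneg _)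
    · refine tendsto_const_nhds.congr' ?_
      filter_upwards [he x] with k hk
      rw [pdv_congr hk, pdv_const, mul_zero]
  have h4 : Tendsto (fun k => -∑ i, ∫ x, X i x * pdv i (η k) x) atTop (𝓝 0) := by
    simpa using (tendsto_finsetSum Finset.univ fun i _ => h3 i).neg
  exact le_of_tendsto_of_tendsto' h2 h4 h1

/-- the stress form `S / ψ²` -/
def sf (v : EE n → ℝ) (x p q : EE n) : ℝ :=
  (1 - tt v x / 2) * ⟪p, q⟫ - ⟪∇ (dd v) x, p⟫ * ⟪∇ (dd v) x, q⟫

/-- the stress tensor is divergence free -/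
theorem div_stress {v : EE n → ℝ} (h : Sol v) {Y : Fin n → EE n → ℝ} {x : EE n}
    (dX : ∀ i, DifferentiableAt ℝ (Y i) x) :
    ∑ i, pdv i (fun x => en v x * Y i x - pdv i v x * ∑ j, pdv j v x * Y j x) x =
      en v x * ∑ i, pdv i (Y i) x - ∑ i, ∑ j, pdv i v x * pdv j v x * pdv i (Y j) x := by
  have hp : ∀ i, ContDiff ℝ 1 (pdv i v) := fun i => contDiff_infty.1 (St.contDiff_pdv_top h.sm i) 1
  have he : ContDiff ℝ 1 (en v) := by
    have e : en v = fun y => (∑ k, pdv k v y ^ 2) / 2 + (1 - v y ^ 2) ^ 2 / 4 :=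
      funext fun y => by simp only [en, St.norm_grad_sq]
    rw [e]
    exact ((ContDiff.sum fun k _ => (hp k).pow 2).div_const 2).add
      (((contDiff_const.sub ((contDiff_infty.1 h.sm 1).pow 2)).pow 2).div_const 4)
  have dp := fun i => (hp i).differentiable (by norm_num) x
  have de := he.differentiable (by norm_num) x
  have dS : DifferentiableAt ℝ (fun x => ∑ j, pdv j v x * Y j x) x :=
    DifferentiableAt.fun_sum fun j _ => (dp j).fun_mul (dX j)
  have h1 : ∀ i, pdv i (fun x => en v x * Y i x - pdv i v x * ∑ j, pdv j v x * Y j x) x =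
      (∑ k, pdv k v x * pdv i (pdv k v) x * Y i x - ∑ j, pdv i v x * pdv j (pdv i v) x * Y j x) +
      ((v x ^ 3 - v x) * (pdv i v x * Y i x) - pdv i (pdv i v) x * ∑ j, pdv j v x * Y j x) +
      (en v x * pdv i (Y i) x - ∑ j, pdv i v x * pdv j v x * pdv i (Y j) x) := fun i => by
    rw [pdv_sub (de.fun_mul (dX i)) ((dp i).fun_mul dS), pdv_mul de (dX i), pdv_mul (dp i) dS,
      pdv_sum _ fun j _ => (dp j).fun_mul (dX j), X7.Weak'.pdv_en h, ← Finset.sum_mul]
    have : pdv i v x * ∑ j, pdv i (fun y => pdv j v y * Y j y) x =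
        ∑ j, pdv i v x * pdv j (pdv i v) x * Y j x + ∑ j, pdv i v x * pdv j v x * pdv i (Y j) x := by
      rw [Finset.mul_sum, ← Finset.sum_add_distrib]
      refine Finset.sum_congr rfl fun j _ => ?_
      rw [pdv_mul (dp j) (dX j), pdv_comm h.isSol.c2.contDiffAt i j]
      ring
    rw [this]
    ring
  simp only [h1, Finset.sum_add_distrib, Finset.sum_sub_distrib]
  rw [Finset.sum_comm (f := fun i k => pdv k v x * pdv i (pdv k v) x * Y i x), sub_self,
    ← Finset.mul_sum, ← Finset.sum_mul, ← lap_eq h.isSol.c2.contDiffAt, h.eq, sub_self,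
    ← Finset.mul_sum, zero_add, zero_add]

theorem en_eq {v : EE n → ℝ} (h : Sol v) (x : EE n) :
    en v x = psi v x ^ 2 / 2 * (1 - tt v x / 2) := by
  rw [en, ← gsq_eq, h.gsq_v, tt_eq, psi]; ring

theorem cd_en {v : EE n → ℝ} (h : Sol v) : ContDiff ℝ 1 (en v) := by
  rw [funext (en_eq h)]
  exact (((contDiff_infty.1 h.psi_sm 1).pow 2).div_const 2).mul
    (contDiff_const.sub ((h.tt_cd 1).div_const 2))

theorem abs_pdv_v {v : EE n → ℝ} (h : Sol v) (i : Fin n) (x : EE n) : |pdv i v x| ≤ 1 := by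
  have h1 : pdv i v x ^ 2 ≤ gsq v x :=
    Finset.single_le_sum (f := fun i => pdv i v x ^ 2) (fun _ _ => sq_nonneg _) (Finset.mem_univ i)
  have h2 := h.gsq_dd_le x
  have h3 := psi_le_one v x
  have h4 := h.psi_pos x
  have h5 := gsq_nonneg (dd v) x
  rw [h.gsq_v] at h1
  refine abs_le_one_iff_mul_self_le_one.2 ?_
  have : psi v x ^ 2 ≤ 1 := pow_le_one₀ h4.le h3
  nlinarith

/-- **the stress identity** (one-sided form) for a locally Lipschitz integrable multiplier `g` and a
`C²` function `f` with bounded gradient -/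
theorem stress_le {v f g h : EE n → ℝ} (hv : Sol v) (hf : ContDiff ℝ 2 f) {M : ℝ}
    (hM : ∀ i x, |pdv i f x| ≤ M) (hg : LocallyLipschitzOn univ g) (ig : Integrable g)
    (ih : Integrable h) (hle : ∀ᵐ x, DifferentiableAt ℝ g x → h x ≤ psi v x ^ 2 *
      (sf v x (∇ g x) (∇ f x) + g x * ((1 - tt v x / 2) * (Δ f) x -
        ∑ i, ∑ j, pdv i (dd v) x * pdv j (dd v) x * hs f i j x))) : ∫ x, h x ≤ 0 := by
  have hp : ∀ i, ContDiff ℝ 1 (pdv i v) := fun i => contDiff_infty.1 (St.contDiff_pdv_top hv.sm i) 1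
  have hq : ∀ i, ContDiff ℝ 1 (pdv i f) := fun i => contDiff_pdv hf (by norm_num) i
  have ll : ∀ {a : EE n → ℝ}, ContDiff ℝ 1 a → LocallyLipschitzOn univ a := fun ha =>
    V.ll_of_contDiffAt fun x _ => ha.contDiffAt
  set A : Fin n → EE n → ℝ := fun i x =>
    2 * (en v x * pdv i f x - pdv i v x * ∑ j, pdv j v x * pdv j f x) with hA
  have cA : ∀ i, ContDiff ℝ 1 (A i) := fun i => contDiff_const.mul
    (((cd_en hv).mul (hq i)).sub ((hp i).mul (ContDiff.sum fun j _ => (hp j).mul (hq j))))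
  have bA : ∀ i x, |A i x| ≤ 2 * (M + n * M) := fun i x => by
    have h1 : |en v x| ≤ 1 := by
      have a1 := hv.tt_nonneg x
      have a2 := tt_le_one v x
      have a3 : psi v x ^ 2 ≤ 1 := pow_le_one₀ (hv.psi_pos x).le (psi_le_one v x)
      rw [en_eq hv, abs_of_nonneg (mul_nonneg (by positivity) (by linarith))]
      nlinarith [sq_nonneg (psi v x)]
    have h2 : |∑ j, pdv j v x * pdv j f x| ≤ n * M := by
      refine (Finset.abs_sum_le_sum_abs _ _).trans ?_
      calc _ ≤ ∑ _j : Fin n, M := Finset.sum_le_sum fun j _ => by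
            rw [abs_mul]
            exact (mul_le_of_le_one_left (abs_nonneg _) (abs_pdv_v hv j x)).trans (hM j x)
        _ = _ := by simp
    rw [hA, abs_mul, abs_two]
    gcongr
    refine (abs_sub _ _).trans (add_le_add ?_ ?_) <;> rw [abs_mul]
    · exact (mul_le_of_le_one_left (abs_nonneg _) h1).trans (hM i x)
    · exact (mul_le_of_le_one_left (abs_nonneg _) (abs_pdv_v hv i x)).trans h2
  refine divL_le (X := fun i x => g x * A i x) (fun i => V.ll_mul hg (ll (cA i)))
    (fun i => ig.mul_bdd (c := 2 * (M + n * M)) (cA i).continuous.aestronglyMeasurable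
      (ae_of_all _ (bA i))) ih ?_
  filter_upwards [hle, V.ae_diff isOpen_univ hg] with x hx hd
  have hd := hd (mem_univ x)
  refine (hx hd).trans (le_of_eq ?_)
  have dq := fun i => (hq i).differentiable (by norm_num) x
  have e1 := div_stress hv (Y := fun i y => 2 * (g y * pdv i f y)) (x := x)
    fun i => (hd.fun_mul (dq i)).const_mul 2
  have e2 : ∀ i, (fun y => g y * A i y) = fun y => en v y * (2 * (g y * pdv i f y)) -
      pdv i v y * ∑ j, pdv j v y * (2 * (g y * pdv j f y)) := fun i => by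
    funext y
    have : ∑ j, pdv j v y * (2 * (g y * pdv j f y)) = 2 * g y * ∑ j, pdv j v y * pdv j f y := by
      rw [Finset.mul_sum]; exact Finset.sum_congr rfl fun j _ => by ring
    rw [this, hA]; ring
  have e3 : ∀ i j, pdv i (fun y => 2 * (g y * pdv j f y)) x =
      2 * (pdv i g x * pdv j f x + g x * hs f i j x) := fun i j => by
    rw [pdv_const_mul (hd.fun_mul (dq j)), pdv_mul hd (dq j), hs]
  simp only [e2]
  rw [e1]
  simp only [e3, hv.pdv_v, en_eq hv, sf, ← gin_eq, gin, lap_eq hf.contDiffAt]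
  have s2 := sqrt2_sq
  have s0 := sqrt2_pos
  have e4 : ∀ i j, psi v x / √2 * pdv i (dd v) x * (psi v x / √2 * pdv j (dd v) x) *
      (2 * (pdv i g x * pdv j f x + g x * hs f i j x)) =
      psi v x ^ 2 * ((pdv i (dd v) x * pdv i g x) * (pdv j (dd v) x * pdv j f x)) +
        psi v x ^ 2 * g x * (pdv i (dd v) x * pdv j (dd v) x * hs f i j x) := fun i j => by
    field_simp
    rw [s2]; ring
  simp only [e4]
  simp only [Finset.sum_add_distrib, ← Finset.mul_sum, ← Finset.sum_mul, hs]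
  ring

/-! ### the function `log ϱ` -/

variable {I : Finset (Fin n)} {c : EE n} {r0 : ℝ}

/-- `log ϱ` -/
def lr (I : Finset (Fin n)) (c : EE n) (r0 : ℝ) (x : EE n) : ℝ := Real.log (rh I c r0 x)

theorem rh_pos (hr : 0 < r0) (x : EE n) : 0 < rh I c r0 x := hr.trans_le (le_rh I c x)

theorem rh_sq (x : EE n) : rh I c r0 x ^ 2 = r0 ^ 2 + ∑ i ∈ I, (x i - c i) ^ 2 :=
  Real.sq_sqrt (add_nonneg (sq_nonneg _) (Finset.sum_nonneg fun _ _ => sq_nonneg _))

theorem cd_rq : ContDiff ℝ ∞ fun x : EE n => r0 ^ 2 + ∑ i ∈ I, (x i - c i) ^ 2 :=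
  contDiff_const.add (ContDiff.sum fun i _ =>
    ((EuclideanSpace.proj (𝕜 := ℝ) i).contDiff.sub contDiff_const).pow 2)

theorem cd_rh (hr : 0 < r0) : ContDiff ℝ ∞ (rh I c r0) :=
  cd_rq.sqrt fun x => by rw [← rh_sq]; exact (pow_pos (rh_pos hr x) 2).ne'

theorem cd_lr (hr : 0 < r0) : ContDiff ℝ ∞ (lr I c r0) :=
  (cd_rh hr).log fun x => (rh_pos hr x).ne'

theorem pdv_rq (j : Fin n) (x : EE n) :
    pdv j (fun x : EE n => r0 ^ 2 + ∑ i ∈ I, (x i - c i) ^ 2) x =
      if j ∈ I then 2 * (x j - c j) else 0 := by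
  have d1 : ∀ i, DifferentiableAt ℝ (fun y : EE n => y i - c i) x := fun i => by fun_prop
  have e : (fun x : EE n => r0 ^ 2 + ∑ i ∈ I, (x i - c i) ^ 2) =
      fun x : EE n => ∑ i ∈ I, (x i - c i) ^ 2 + r0 ^ 2 := funext fun _ => add_comm _ _
  rw [e, pdv_add_const, pdv_sum _ fun i _ => (d1 i).fun_pow 2]
  simp only [pdv_sq (d1 _), pdv_sub_const, pdv_coord]
  split_ifs with h
  · rw [Finset.sum_eq_single j (fun i _ hi => by simp [hi, hi.symm]) fun h' => (h' h).elim]
    simp
  · exact Finset.sum_eq_zero fun i hi => by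
      have : i ≠ j := fun e => h (e ▸ hi)
      simp [this, this.symm]

theorem pdv_lr (hr : 0 < r0) (j : Fin n) (x : EE n) :
    pdv j (lr I c r0) x = if j ∈ I then (x j - c j) / rh I c r0 x ^ 2 else 0 := by
  have e : lr I c r0 = fun x => (fun s => Real.log s / 2) (r0 ^ 2 + ∑ i ∈ I, (x i - c i) ^ 2) :=
    funext fun y => by
      simp only [lr]
      rw [← rh_sq, Real.log_pow]; push_cast; ring
  have h0 : r0 ^ 2 + ∑ i ∈ I, (x i - c i) ^ 2 ≠ 0 := by
    rw [← rh_sq]; exact (pow_pos (rh_pos hr x) 2).ne'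
  rw [e, pdv_comp ((Real.hasDerivAt_log h0).div_const 2) (cd_rq.differentiable (by simp) x),
    pdv_rq, ← rh_sq]
  split_ifs
  · field_simp
  · simp

theorem hs_lr (hr : 0 < r0) (i j : Fin n) (x : EE n) : hs (lr I c r0) i j x =
    (if i = j ∧ j ∈ I then (rh I c r0 x ^ 2)⁻¹ else 0) -
      2 * (pdv i (lr I c r0) x * pdv j (lr I c r0) x) := by
  have h0 : r0 ^ 2 + ∑ i ∈ I, (x i - c i) ^ 2 ≠ 0 := by
    rw [← rh_sq]; exact (pow_pos (rh_pos hr x) 2).ne'
  rw [hs, funext (pdv_lr hr j), pdv_lr hr]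
  by_cases hj : j ∈ I
  · simp only [hj, if_true, and_true, rh_sq, div_eq_mul_inv]
    have d1 : DifferentiableAt ℝ (fun y : EE n => y j - c j) x := by fun_prop
    have d2 := (cd_rq (I := I) (c := c) (r0 := r0)).differentiable (by simp) x
    rw [pdv_mul d1 (d2.fun_inv h0), pdv_comp (hasDerivAt_inv h0) d2, pdv_rq, pdv_sub_const,
      pdv_coord]
    by_cases hi : i ∈ I <;> by_cases hij : i = j
    · subst hij; simp only [hi, if_true]; field_simp; ring
    · simp only [hi, hij, Ne.symm hij, if_true, if_false]; field_simp; ring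
    · exact (hi (hij ▸ hj)).elim
    · simp [hi, hij, Ne.symm hij]
  · simp [hj, pdv_const]

theorem gsq_lr (hr : 0 < r0) (x : EE n) : ‖∇ (lr I c r0) x‖ ^ 2 ≤ (rh I c r0 x ^ 2)⁻¹ := by
  have h0 : 0 < rh I c r0 x ^ 2 := pow_pos (rh_pos hr x) 2
  rw [← gsq_eq, gsq]
  simp only [pdv_lr hr, ite_pow, div_pow]
  rw [Finset.sum_ite, Finset.filter_mem_eq_inter, Finset.univ_inter, ← Finset.sum_div]
  have h1 : ∑ i ∈ I, (x i - c i) ^ 2 ≤ rh I c r0 x ^ 2 := by rw [rh_sq]; nlinarith [sq_nonneg r0]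
  simp only [ne_eq, OfNat.ofNat_ne_zero, not_false_eq_true, zero_pow, Finset.sum_const_zero,
    add_zero]
  rw [div_le_iff₀ (by positivity)]
  calc _ ≤ _ := h1
    _ = _ := by field_simp

theorem norm_grad_lr (hr : 0 < r0) (x : EE n) : ‖∇ (lr I c r0) x‖ ≤ (rh I c r0 x)⁻¹ := by
  have h0 := rh_pos (I := I) (c := c) hr x
  refine (pow_le_pow_iff_left₀ (norm_nonneg _) (by positivity) two_ne_zero).1 ?_
  rw [inv_pow]; exact gsq_lr hr x

/-- the tangential trace -/
def tr (v : EE n → ℝ) (I : Finset (Fin n)) (x : EE n) : ℝ :=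
  (1 - tt v x / 2) * I.card - ∑ i ∈ I, pdv i (dd v) x ^ 2

theorem le_tr (v : EE n → ℝ) (x : EE n) : (1 - tt v x / 2) * I.card - (1 - tt v x) ≤ tr v I x := by
  have : ∑ i ∈ I, pdv i (dd v) x ^ 2 ≤ gsq (dd v) x :=
    Finset.sum_le_sum_of_subset_of_nonneg (Finset.subset_univ I) fun _ _ _ => sq_nonneg _
  rw [tr, tt_eq]; linarith

theorem tr_le (v : EE n → ℝ) (x : EE n) : tr v I x ≤ (1 - tt v x / 2) * I.card :=
  sub_le_self _ (Finset.sum_nonneg fun _ _ => sq_nonneg _)

/-- **HARDY**: the stress identity for `f = log ϱ` -/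
theorem hardy {v g h : EE n → ℝ} (hv : Sol v) (hr : 0 < r0) (hg : LocallyLipschitzOn univ g)
    (ig : Integrable g) (ih : Integrable h) (hle : ∀ᵐ x, DifferentiableAt ℝ g x →
      h x ≤ psi v x ^ 2 * (sf v x (∇ g x) (∇ (lr I c r0) x) + g x * (tr v I x / rh I c r0 x ^ 2 -
        2 * sf v x (∇ (lr I c r0) x) (∇ (lr I c r0) x)))) : ∫ x, h x ≤ 0 := by
  have hf : ContDiff ℝ 2 (lr I c r0) := contDiff_infty.1 (cd_lr hr) 2
  refine stress_le hv hf (M := r0⁻¹) (fun i x => ?_) hg ig ih (hle.mono fun x hx hd => ?_)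
  · rw [← grad_apply]
    exact (PiLp.norm_apply_le _ i).trans ((norm_grad_lr hr x).trans (inv_anti₀ hr (le_rh I c x)))
  · refine (hx hd).trans (le_of_eq ?_)
    congr 3
    rw [lap_eq hf.contDiffAt]
    change _ = _ * ∑ i, hs (lr I c r0) i i x - _
    simp only [hs_lr hr, sf, ← gin_eq, gin, tr, mul_sub, Finset.sum_sub_distrib, true_and,
      ← Finset.mul_sum]
    have e1 : ∑ i, (if i ∈ I then (rh I c r0 x ^ 2)⁻¹ else 0) = I.card * (rh I c r0 x ^ 2)⁻¹ := by
      rw [Finset.sum_ite_mem, Finset.univ_inter, Finset.sum_const, nsmul_eq_mul]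
    have e2 : ∑ i, ∑ j, pdv i (dd v) x * pdv j (dd v) x *
        (if i = j ∧ j ∈ I then (rh I c r0 x ^ 2)⁻¹ else 0) =
        (∑ i ∈ I, pdv i (dd v) x ^ 2) * (rh I c r0 x ^ 2)⁻¹ := by
      have : ∀ i, ∑ j, pdv i (dd v) x * pdv j (dd v) x *
          (if i = j ∧ j ∈ I then (rh I c r0 x ^ 2)⁻¹ else 0) =
          if i ∈ I then pdv i (dd v) x ^ 2 * (rh I c r0 x ^ 2)⁻¹ else 0 := fun i => by
        rw [Finset.sum_eq_single i (fun j _ hj => by simp [Ne.symm hj]) (by simp)]
        split_ifs <;> simp_all [sq]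
      simp only [this]
      rw [Finset.sum_ite_mem, Finset.univ_inter, Finset.sum_mul]
    have e3 : ∑ i, ∑ j, pdv i (dd v) x * pdv j (dd v) x *
        (2 * (pdv i (lr I c r0) x * pdv j (lr I c r0) x)) =
        2 * ((∑ i, pdv i (dd v) x * pdv i (lr I c r0) x) *
          ∑ i, pdv i (dd v) x * pdv i (lr I c r0) x) := by
      rw [Finset.sum_mul_sum, Finset.mul_sum]
      refine Finset.sum_congr rfl fun i _ => ?_
      rw [Finset.mul_sum]
      exact Finset.sum_congr rfl fun j _ => by ring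
    rw [e1, e2, e3]
    ring

end

end Crest.Agent.N067.H
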