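import Crest.Agent.N067.M.Defs

/-!
# Row 67, block MI (helper39): the functions `G` and `J` of `MIData` at a finite cap `ρm`
-/

set_option autoImplicit false
set_option linter.dupNamespace false

open MeasureTheory Set
open scoped ENNReal

namespace Crest.Agent.N067.M.Dat

open Crest.Agent.R077

noncomputable section

variable {n : ℕ} (D : Dat n)

open Classical in
/-- `G` -/
def Gf (x : EE n) : ℝ :=
  (if x ∈ D.Om then D.ch x ^ 2 * D.Z x ^ 2 else if |dd D.v x| ≤ 1 then 1 else 0) *
    psi D.v x ^ 2 / D.Z0 ^ 2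

/-- the part of the gain which does not depend on the weight -/
def Gn (y : EE n) : ℝ := tt D.v y * D.Z y ^ 2 + D.Z0 ^ 2 * D.f0 ^ 3 * D.F (tt D.v y)

/-- `J` -/
def Jf (x : EE n) : ℝ :=
  (∫ y in {y | |dd D.v y| ≤ 1}, Real.exp (-‖x - y‖) * D.Gn y) / D.Z0 ^ 2

end

end Crest.Agent.N067.M.Dat
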