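import Crest.Agent.N067.H.Quad
import Crest.Agent.N067.Y.Base

/-!
# Row 67, block MI (helper39): the Hardy identity with the TANGENTIAL tensor (helper94's remark)

`S̃ = ψ² (N² I - n ⊗ n) = S - (ψ² t / 2) I` kills `n`, so there is no Hardy flux at the cut.
-/

set_option autoImplicit false

open MeasureTheory Laplacian InnerProductSpace Topology Filter Set
open scoped RealInnerProductSpace Gradient ContDiff

namespace Crest.Agent.N067.H

open Crest.Agent.R077

noncomputable section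

variable {n : ℕ} {I : Finset (Fin n)} {c : EE n} {r0 : ℝ}

/-- the tangential form `S̃ / ψ²` -/
def tf (v : EE n → ℝ) (x p q : EE n) : ℝ :=
  (1 - tt v x) * ⟪p, q⟫ - ⟪∇ (dd v) x, p⟫ * ⟪∇ (dd v) x, q⟫

theorem tf_eq (v : EE n → ℝ) (x p q : EE n) : tf v x p q = sf v x p q - tt v x / 2 * ⟪p, q⟫ := by
  rw [tf, sf]; ring

theorem tf_nn (v : EE n → ℝ) (x q : EE n) : tf v x (∇ (dd v) x) q = 0 := by
  rw [tf, real_inner_self_eq_norm_sq, tt]; ring

theorem tf_add (v : EE n → ℝ) (x p p' q : EE n) : tf v x (p + p') q = tf v x p q + tf v x p' q := by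
  simp only [tf, inner_add_left, inner_add_right]; ring

theorem tf_smul (v : EE n → ℝ) (x p q : EE n) (a : ℝ) : tf v x (a • p) q = a * tf v x p q := by
  simp only [tf, real_inner_smul_left, real_inner_smul_right]; ring

theorem abs_tf_le {v : EE n → ℝ} (hv : Sol v) (x p q : EE n) : |tf v x p q| ≤ 2 * (‖p‖ * ‖q‖) := by
  have h1 := hv.tt_nonneg x
  have h2 := tt_le_one v x
  have h3 : ∀ a : EE n, |⟪∇ (dd v) x, a⟫| ≤ ‖a‖ := fun a => (abs_real_inner_le_norm _ _).trans
    (mul_le_of_le_one_left (norm_nonneg _) (hv.norm_grad_dd_le x))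
  rw [tf, two_mul]
  refine (abs_sub _ _).trans (add_le_add ?_ ?_) <;> rw [abs_mul]
  · refine (mul_le_of_le_one_left (abs_nonneg _) ?_).trans (abs_real_inner_le_norm _ _)
    rw [abs_of_nonneg (by linarith)]; linarith
  · exact mul_le_mul (h3 p) (h3 q) (abs_nonneg _) (norm_nonneg _)

/-- the tangential trace -/
def trT (v : EE n → ℝ) (I : Finset (Fin n)) (x : EE n) : ℝ :=
  (1 - tt v x) * I.card - ∑ i ∈ I, pdv i (dd v) x ^ 2

theorem le_trT (v : EE n → ℝ) (hI : 7 ≤ I.card) (x : EE n) : 6 - 6 * tt v x ≤ trT v I x := by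
  have h1 : ∑ i ∈ I, pdv i (dd v) x ^ 2 ≤ gsq (dd v) x :=
    Finset.sum_le_sum_of_subset_of_nonneg (Finset.subset_univ I) fun _ _ _ => sq_nonneg _
  have h2 : (7 : ℝ) ≤ I.card := by exact_mod_cast hI
  have h3 := tt_le_one v x
  have h4 := tt_eq v x
  rw [trT]; nlinarith

theorem abs_trT_le {v : EE n → ℝ} (hv : Sol v) (x : EE n) : |trT v I x| ≤ n + 1 := by
  have h1 : ∑ i ∈ I, pdv i (dd v) x ^ 2 ≤ gsq (dd v) x :=
    Finset.sum_le_sum_of_subset_of_nonneg (Finset.subset_univ I) fun _ _ _ => sq_nonneg _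
  have h0 : 0 ≤ ∑ i ∈ I, pdv i (dd v) x ^ 2 := Finset.sum_nonneg fun _ _ => sq_nonneg _
  have h2 : (I.card : ℝ) ≤ n := by exact_mod_cast (Finset.card_le_univ I).trans_eq (by simp)
  have h3 := tt_le_one v x
  have h4 := hv.tt_nonneg x
  have h5 := hv.gsq_dd_le x
  have h6 : (0 : ℝ) ≤ I.card := Nat.cast_nonneg _
  rw [trT, abs_le]; constructor <;> nlinarith

theorem lap_lr (hr : 0 < r0) (x : EE n) : (Δ (lr I c r0)) x =
    I.card / rh I c r0 x ^ 2 - 2 * ⟪∇ (lr I c r0) x, ∇ (lr I c r0) x⟫ := by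
  have hf : ContDiff ℝ 2 (lr I c r0) := contDiff_infty.1 (cd_lr hr) 2
  rw [lap_eq hf.contDiffAt]
  change ∑ i, hs (lr I c r0) i i x = _
  simp only [hs_lr hr, ← gin_eq, gin, Finset.sum_sub_distrib, true_and, ← Finset.mul_sum]
  rw [Finset.sum_ite_mem, Finset.univ_inter, Finset.sum_const, nsmul_eq_mul, div_eq_mul_inv]

/-- `|∇ (ψ² t)| ≤ C ψ² t` -/
theorem grad_P (n : ℕ) : ∃ C : ℝ, 0 ≤ C ∧ ∀ v : EE n → ℝ, Sol v → ∀ x,
    ‖∇ (fun y => psi v y ^ 2 * tt v y) x‖ ≤ C * (psi v x ^ 2 * tt v x) := by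
  obtain ⟨C, hC, h⟩ := (Ord.t2 (n := n)).grad_bd
  refine ⟨C + 4, by positivity, fun v hv x => ?_⟩
  have h1 := h v hv x
  have t0 := hv.tt_nonneg x
  have p0 := hv.psi_pos x
  rw [Real.sq_sqrt t0] at h1
  have dψ := hv.psi_sm.differentiable (by simp) x
  have e : ∇ (fun y => psi v y ^ 2 * tt v y) x = psi v x ^ 2 • ∇ (tt v) x +
      (-(2 * √2 * v x * (psi v x ^ 2 * tt v x))) • ∇ (dd v) x := by
    ext j
    rw [grad_apply, pdv_mul (dψ.fun_pow 2) (hv.tt_diff x), pdv_sq dψ, hv.pdv_psi]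
    simp only [PiLp.add_apply, PiLp.smul_apply, grad_apply, smul_eq_mul]
    ring
  rw [e]
  refine (norm_add_le _ _).trans ?_
  rw [norm_smul, norm_smul, norm_neg, Real.norm_of_nonneg (by positivity), norm_mul, norm_mul,
    Real.norm_of_nonneg (by positivity), Real.norm_of_nonneg (r := psi v x ^ 2 * tt v x)
      (by positivity)]
  have h2 : 2 * √2 ≤ 4 := by nlinarith [sqrt2_sq, sqrt2_pos]
  have h3 : 2 * √2 * ‖v x‖ * (psi v x ^ 2 * tt v x) * ‖∇ (dd v) x‖ ≤
      4 * 1 * (psi v x ^ 2 * tt v x) * 1 := by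
    gcongr
    · exact (hv.lt x).le
    · exact hv.norm_grad_dd_le x
  have h4 : psi v x ^ 2 * ‖∇ (tt v) x‖ ≤ psi v x ^ 2 * (C * tt v x) := by gcongr
  linarith

/-- **HARDY, tangential form** -/
theorem hardyT (n : ℕ) : ∃ C : ℝ, 0 ≤ C ∧ ∀ (I : Finset (Fin n)) (c : EE n) (r0 : ℝ)
    (v g h : EE n → ℝ), Sol v → 0 < r0 → LocallyLipschitzOn univ g → (∀ x, 0 ≤ g x) →
    Integrable g → Integrable (fun x => ‖∇ g x‖) → Integrable h →
    (∀ᵐ x, DifferentiableAt ℝ g x →
      h x ≤ psi v x ^ 2 * (tf v x (∇ g x) (∇ (lr I c r0) x) + g x * (trT v I x / rh I c r0 x ^ 2 -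
        2 * tf v x (∇ (lr I c r0) x) (∇ (lr I c r0) x) - C * tt v x / rh I c r0 x))) →
    ∫ x, h x ≤ 0 := by
  obtain ⟨C, hC, hP⟩ := grad_P n
  refine ⟨C / 2, by positivity, fun I c r0 v g h hv hr hg g0 ig ig' ih hle => ?_⟩
  have hf : ContDiff ℝ 2 (lr I c r0) := contDiff_infty.1 (cd_lr hr) 2
  have hq : ∀ i, ContDiff ℝ 1 (pdv i (lr I c r0)) := fun i => contDiff_pdv hf (by norm_num) i
  have cP : ContDiff ℝ 1 fun y => psi v y ^ 2 * tt v y :=
    ((contDiff_infty.1 hv.psi_sm 1).pow 2).mul (hv.tt_cd 1)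
  have bP : ∀ x, 0 ≤ psi v x ^ 2 * tt v x ∧ psi v x ^ 2 * tt v x ≤ 1 := fun x =>
    ⟨mul_nonneg (sq_nonneg _) (hv.tt_nonneg x), mul_le_one₀
      (pow_le_one₀ (hv.psi_pos x).le (psi_le_one v x)) (hv.tt_nonneg x) (tt_le_one v x)⟩
  have bL : ∀ x, ‖∇ (lr I c r0) x‖ ≤ r0⁻¹ := fun x =>
    (norm_grad_lr hr x).trans (inv_anti₀ hr (le_rh I c x))
  have cL : Continuous (∇ (lr I c r0)) := (InnerProductSpace.toDual ℝ (EE n)).symm.continuous.comp
    (hf.continuous_fderiv (by simp))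
  have cG : Continuous (∇ fun y => psi v y ^ 2 * tt v y) :=
    (InnerProductSpace.toDual ℝ (EE n)).symm.continuous.comp (cP.continuous_fderiv (by simp))
  have mg : Measurable (∇ g) := (InnerProductSpace.toDual ℝ (EE n)).symm.continuous.measurable.comp
    (measurable_fderiv ℝ g)
  -- the correction field
  set k : EE n → ℝ := fun x => (psi v x ^ 2 * tt v x * ⟪∇ g x, ∇ (lr I c r0) x⟫ +
    g x * (⟪∇ (fun y => psi v y ^ 2 * tt v y) x, ∇ (lr I c r0) x⟫ +
      psi v x ^ 2 * tt v x * (Δ (lr I c r0)) x)) / 2 with hk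
  have ik : Integrable k := by
    refine (Integrable.add ?_ (ig.mul_bdd (c := C * r0⁻¹ + (I.card / r0 ^ 2 + 2 * (r0⁻¹ * r0⁻¹)))
      ?_ (ae_of_all _ fun x => ?_))).div_const 2
    · refine (ig'.mul_const r0⁻¹).mono' (cP.continuous.measurable.mul
        (mg.inner cL.measurable)).aestronglyMeasurable (ae_of_all _ fun x => ?_)
      rw [norm_mul, Real.norm_of_nonneg (bP x).1]
      refine (mul_le_of_le_one_left (norm_nonneg _) (bP x).2).trans
        ((norm_inner_le_norm _ _).trans ?_)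
      gcongr; exact bL x
    · simp only [lap_lr hr]
      have := (cd_rh (I := I) (c := c) hr).continuous
      exact ((cG.inner cL).add (cP.continuous.mul ((continuous_const.div (this.pow 2) fun x =>
        (pow_pos (rh_pos hr x) 2).ne').sub (continuous_const.mul (cL.inner cL))))).aestronglyMeasurable
    · refine (norm_add_le _ _).trans (add_le_add ((norm_inner_le_norm _ _).trans ?_) ?_)
      · gcongr
        · exact (hP v hv x).trans (mul_le_of_le_one_right hC (bP x).2)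
        · exact bL x
      · rw [norm_mul, Real.norm_of_nonneg (bP x).1, lap_lr hr]
        refine (mul_le_of_le_one_left (norm_nonneg _) (bP x).2).trans ((norm_sub_le _ _).trans
          (add_le_add ?_ ?_))
        · rw [Real.norm_of_nonneg (by positivity)]
          gcongr; exact le_rh I c x
        · rw [norm_mul, Real.norm_two]
          gcongr
          exact (norm_inner_le_norm _ _).trans (by gcongr <;> exact bL x)
  have k0 : ∫ x, -k x ≤ 0 := by
    refine divL_le (X := fun i x => g x * (-(1 / 2) * (psi v x ^ 2 * tt v x * pdv i (lr I c r0) x)))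
      (fun i => V.ll_mul hg (V.ll_of_contDiffAt fun x _ =>
        (contDiff_const.mul (cP.mul (hq i))).contDiffAt))
      (fun i => ig.mul_bdd (c := r0⁻¹)
        (contDiff_const.mul (cP.mul (hq i))).continuous.aestronglyMeasurable
        (ae_of_all _ fun x => ?_)) ik.neg ?_
    · have h1 : ‖pdv i (lr I c r0) x‖ ≤ r0⁻¹ := by
        rw [← grad_apply]; exact (PiLp.norm_apply_le _ i).trans (bL x)
      rw [norm_mul, norm_mul, Real.norm_of_nonneg (bP x).1]
      have h2 := mul_le_of_le_one_left (norm_nonneg (pdv i (lr I c r0) x)) (bP x).2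
      have h3 : 0 ≤ r0⁻¹ := by positivity
      norm_num
      rw [Real.norm_eq_abs] at h1 h2
      linarith
    · filter_upwards [V.ae_diff isOpen_univ hg] with x hd
      have hd := hd (mem_univ x)
      have dq := fun i => (hq i).differentiable (by norm_num) x
      have dP := cP.differentiable (by norm_num) x
      refine le_of_eq ?_
      have e : ∀ i, pdv i (fun x => g x * (-(1 / 2) * (psi v x ^ 2 * tt v x *
          pdv i (lr I c r0) x))) x = -(1 / 2) * (psi v x ^ 2 * tt v x) *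
            (pdv i g x * pdv i (lr I c r0) x) + -(1 / 2) * g x *
            (pdv i (fun y => psi v y ^ 2 * tt v y) x * pdv i (lr I c r0) x) +
            -(1 / 2) * g x * (psi v x ^ 2 * tt v x) * pdv i (pdv i (lr I c r0)) x := fun i => by
        rw [pdv_mul hd ((dP.fun_mul (dq i)).const_mul _), pdv_const_mul (dP.fun_mul (dq i)),
          pdv_mul dP (dq i)]
        ring
      simp only [e, Finset.sum_add_distrib, ← Finset.mul_sum, hk, ← gin_eq, gin,
        lap_eq hf.contDiffAt]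
      ring
  have k1 := hardy (I := I) (c := c) hv hr hg ig (ih.add ik) (hle.mono fun x hx hd => by
    have h1 := hx hd
    have h2 : ⟪∇ (fun y => psi v y ^ 2 * tt v y) x, ∇ (lr I c r0) x⟫ ≤
        C * (psi v x ^ 2 * tt v x) * (rh I c r0 x)⁻¹ :=
      (real_inner_le_norm _ _).trans (mul_le_mul (hP v hv x) (norm_grad_lr hr x) (norm_nonneg _)
        (mul_nonneg hC (bP x).1))
    have h3 := mul_le_mul_of_nonneg_left h2 (g0 x)
    simp only [Pi.add_apply, hk, lap_lr hr]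
    simp only [tf_eq, trT, div_eq_mul_inv] at h1
    simp only [tr, div_eq_mul_inv]
    nlinarith)
  rw [integral_add' ih ik] at k1
  rw [integral_neg] at k0
  linarith

/-- **the pointwise form** with the tangential tensor -/
theorem quadT (v : EE n → ℝ) (x : EE n) (ht0 : 0 ≤ tt v x) (ht : tt v x ≤ 1 / 10000)
    {a b s ε σ trc : ℝ} (X L U : EE n) (h : Adm a b s) (hε0 : 0 ≤ ε) (hε : ε ≤ 1 / 10000)
    (hL : ‖L‖ ^ 2 ≤ σ) (htr : 6 - 6 * tt v x ≤ trc) :
    1 / 1000 * (a - s ^ 2) * ‖X‖ ^ 2 + 1 / 100 * σ - 20000 * ‖U‖ ^ 2 ≤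
      a * ‖X‖ ^ 2 + 2 * b * ⟪X, (-(11 / 10 : ℝ)) • L + U⟫ -
        (1 + ε) * ‖s • X + ((-(11 / 10 : ℝ)) • L + U)‖ ^ 2 +
        33 / 25 * (tf v x ((2 * s) • X + (2 : ℝ) • ((-(11 / 10 : ℝ)) • L + U)) L + trc * σ -
          2 * tf v x L L) := by
  have hA := h.nonneg
  set N := ‖∇ (dd v) x‖ with hN
  have hN2 : N ^ 2 = 1 - tt v x := by rw [tt]; ring
  have hN0 : 0 < N := lt_of_le_of_ne (norm_nonneg _) fun e => by rw [← e] at hN2; linarith
  set ν : EE n := N⁻¹ • ∇ (dd v) x with hν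
  have hν1 : ⟪ν, ν⟫ = 1 := by
    rw [real_inner_self_eq_norm_sq, hν, norm_smul, norm_inv, Real.norm_of_nonneg hN0.le, ← hN,
      inv_mul_cancel₀ hN0.ne', one_pow]
  have hg : ∀ p, ⟪∇ (dd v) x, p⟫ = N * ⟪ν, p⟫ := fun p => by
    rw [hν, real_inner_smul_left]; field_simp
  have hT : ∀ p q : EE n, ⟪p - ⟪ν, p⟫ • ν, q - ⟪ν, q⟫ • ν⟫ = ⟪p, q⟫ - ⟪ν, p⟫ * ⟪ν, q⟫ :=
    fun p q => by
      simp only [inner_sub_left, inner_sub_right, real_inner_smul_left, real_inner_smul_right, hν1,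
        real_inner_comm ν p]
      ring
  have q1 := qf_ge (X - ⟪ν, X⟫ • ν) (L - ⟪ν, L⟫ • ν) (U - ⟪ν, U⟫ • ν) h hε0 hε
    (θ := 1 - tt v x) (m := 1001 / 1000 * (100 / 106) + 5 / 10000) (by linarith) (by linarith)
    (by norm_num) (by
      have := sq_pert (B := 11 / 5 * s - b) (η := ε - 6 / 5 * tt v x) (m := 100 / 106) hA
        (by linarith [h.h1]) h.h2 (abs_le.2 ⟨by linarith, by linarith⟩)
      refine le_trans (le_of_eq ?_) this
      ring) (by linarith)
  have q2 := qf_ge (E := ℝ) ⟪ν, X⟫ ⟪ν, L⟫ ⟪ν, U⟫ h hε0 hε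
    (θ := 0) (m := 1001 / 1000 * 5 + 5 / 10000) le_rfl zero_le_one
    (by norm_num) (by
      have := sq_pert (B := s - b) (η := ε) (m := 5) hA
        (by nlinarith [h.h4]) h.h2 (abs_le.2 ⟨by linarith, by linarith⟩)
      refine le_trans (le_of_eq ?_) this
      ring) (by linarith)
  have hσ : 0 ≤ σ := (sq_nonneg _).trans hL
  have p1 : (6 - 6 * (1 / 10000)) * σ ≤ trc * σ := by gcongr; linarith
  simp only [qf, ← real_inner_self_eq_norm_sq, hT] at q1
  simp only [qf, Real.norm_eq_abs, sq_abs, RCLike.inner_apply, conj_trivial] at q2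
  rw [← real_inner_self_eq_norm_sq L] at hL
  simp only [tf, hg, ← real_inner_self_eq_norm_sq, inner_add_left, inner_add_right,
    real_inner_smul_left, real_inner_smul_right, real_inner_comm X L, real_inner_comm X U,
    real_inner_comm L U]
  have e1 : ∀ y z : ℝ, N * y * (N * z) = (1 - tt v x) * (y * z) := fun y z => by
    rw [← hN2]; ring
  simp only [e1]
  nlinarith

end

end Crest.Agent.N067.H
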