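import Crest.Agent.N067.M.Bas
import Crest.Agent.N067.M.FL
import Crest.Agent.N067.M.That

/-!
# Row 67, block MI (helper39): the depth of the cut

`w = C1 clamp (-log U, log M², log (f0 / 80))` on `Om`, `Th = That φ v w`.
-/

set_option autoImplicit false
set_option linter.dupNamespace false

open MeasureTheory InnerProductSpace Topology Filter Set Metric
open scoped RealInnerProductSpace Gradient ContDiff ENNReal

namespace Crest.Agent.N067.M

open Crest.Agent.R077 Crest.Agent.N067.V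

noncomputable section

variable {n : ℕ}

theorem ll_comp_on {E F G : Type*} [PseudoMetricSpace E] [PseudoMetricSpace F]
    [PseudoMetricSpace G] {Ω : Set E} {s : Set F} {u : E → F} {f : F → G}
    (hu : LocallyLipschitzOn Ω u) (hf : LocallyLipschitzOn s f) (h : MapsTo u Ω s) :
    LocallyLipschitzOn Ω fun x => f (u x) := by
  intro x hx
  obtain ⟨K, t, ht, h1⟩ := hu hx
  obtain ⟨K', t', ht', h2⟩ := hf (h hx)
  refine ⟨K' * K, t ∩ u ⁻¹' t', inter_mem ht ?_,
    h2.comp (h1.mono inter_subset_left) fun _ hy => hy.2⟩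
  exact (tendsto_nhdsWithin_iff.2 ⟨hu.continuousOn x hx, eventually_nhdsWithin_of_forall h⟩) ht'

/-- gluing: Lipschitz on the open set `Ω`, locally constant at the other points of `T` -/
theorem ll_glue {T Ω : Set (EE n)} {f g : EE n → ℝ} {a : ℝ} (hΩ : IsOpen Ω)
    (hg : LocallyLipschitzOn Ω g) (h1 : ∀ x ∈ Ω, f x = g x)
    (h2 : ∀ x ∈ T, x ∉ Ω → ∀ᶠ y in 𝓝 x, f y = a) : LocallyLipschitzOn T f := by
  intro x hx
  by_cases h : x ∈ Ω
  · obtain ⟨K, t, ht, h3⟩ := hg h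
    rw [hΩ.nhdsWithin_eq h] at ht
    refine ⟨K, t ∩ Ω, mem_nhdsWithin_of_mem_nhds (inter_mem ht (hΩ.mem_nhds h)), ?_⟩
    intro y hy z hz
    rw [h1 y hy.2, h1 z hz.2]
    exact h3 hy.1 hz.1
  · refine ⟨0, {y | f y = a}, mem_nhdsWithin_of_mem_nhds (h2 x hx h), fun y hy z hz => ?_⟩
    rw [show f y = a from hy, show f z = a from hz]; simp

theorem exists_polylog (Λ C2 : ℝ) : ∃ M0 : ℝ, 11 ≤ M0 ∧ ∀ ρ, M0 ≤ ρ →
    Λ * (3 + C2 * Real.log ρ) ^ 6 ≤ ρ := by
  have h1 := (Real.isLittleO_pow_log_id_atTop (n := 6)).bound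
    (c := ((|Λ| + 1) * (3 + |C2|) ^ 6)⁻¹) (by positivity)
  obtain ⟨M, hM⟩ := eventually_atTop.1 (h1.and (Real.tendsto_log_atTop.eventually_ge_atTop 1))
  refine ⟨max M 11, le_max_right _ _, fun ρ h => ?_⟩
  obtain ⟨h2, h3⟩ := hM ρ ((le_max_left _ _).trans h)
  have h0 : 0 < ρ := by linarith [(le_max_right _ _).trans h]
  rw [id, Real.norm_of_nonneg h0.le, Real.norm_of_nonneg (by positivity), inv_mul_eq_div,
    le_div_iff₀ (by positivity)] at h2
  have h4 : |3 + C2 * Real.log ρ| ≤ (3 + |C2|) * Real.log ρ := by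
    refine (abs_add_le _ _).trans ?_
    rw [abs_mul, abs_of_nonneg (by linarith : 0 ≤ Real.log ρ), abs_of_nonneg (by norm_num)]
    nlinarith
  calc _ ≤ |Λ * (3 + C2 * Real.log ρ) ^ 6| := le_abs_self _
    _ = |Λ| * |3 + C2 * Real.log ρ| ^ 6 := by rw [abs_mul, abs_pow]
    _ ≤ (|Λ| + 1) * ((3 + |C2|) * Real.log ρ) ^ 6 := by gcongr; linarith
    _ = _ := by ring
    _ ≤ _ := h2

namespace Dat

variable (D : Dat n)

/-- `u = log U` -/
def lu (x : EE n) : ℝ := Real.log (D.U x)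

open Classical in
/-- the shallow function whose average is the depth of the cut -/
def wf (C1 : ℝ) (y : EE n) : ℝ := C1 * max (Real.log (D.M ^ 2))
  (if y ∈ D.Om then min (-D.lu y) (Real.log (D.f0 / 80)) else Real.log (D.M ^ 2))

/-- the data with the true depth of the cut -/
def cut (φ : ContDiffBump (0 : EE n)) (C1 : ℝ) : Dat n := { D with Th := That φ D.v (D.wf C1) }

/-- the data with a trivial depth -/
def triv (C1 : ℝ) : Dat n := { D with Th := fun _ => C1 * Real.log D.f0 }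

/-- the closed set which carries the multipliers -/
def Supp : Set (EE n) := {x | |dd D.v x| ≤ D.Th x + 1 ∧ ph0 D.v x ≤ 1 / (2 * D.M)}

/-- numerical hypotheses; `Cf` is the constant of `FLStmt.cmp`, `Ct` the one of `ThatStmt` -/
structure Nm (Cf Ct C1 : ℝ) : Prop where
  f1 : 1 ≤ Cf
  t1 : 1 ≤ Ct
  c1 : 1 ≤ C1
  c2 : 3 * C1 ≤ D.C2
  M9 : 11 ≤ D.M
  f0 : 80 * D.M ^ 2 ≤ D.f0
  big : ∀ ρ, D.M ≤ ρ → 10000 * Cf ^ 2 * Ct * C1 ^ 4 * (3 + D.C2 * Real.log ρ) ^ 6 ≤ ρ
  cmp : ∀ x y, ph0 D.v y ≤ Cf * (1 + ‖x - y‖) ^ 2 * ph0 D.v x ∧ tt D.v x ≤ Cf * ph0 D.v x ∧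
    Bn D.v x ≤ Cf * ph0 D.v x

end Dat

variable {D : Dat n} {K lam C1 rs Cf Ct : ℝ} {x y : EE n}

theorem one_lt_log {ρ : ℝ} (h : 11 ≤ ρ) : 2 ≤ Real.log ρ := by
  rw [Real.le_log_iff_exp_le (by linarith)]
  have := Real.exp_one_lt_d9
  rw [show (2 : ℝ) = 1 + 1 by norm_num, Real.exp_add]
  nlinarith [Real.exp_pos 1]

theorem norm_sub_ft (hv : Sol D.v) (x : EE n) : ‖x - ft D.v x‖ ≤ |dd D.v x| := by
  rw [ft, sub_sub_cancel, norm_smul]
  exact mul_le_of_le_one_right (norm_nonneg _) (hv.norm_grad_dd_le x)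

theorem norm_sub_near (hv : Sol D.v) {a : ℝ} (hy : y ∈ ball (ft D.v x) a) :
    ‖x - y‖ ≤ |dd D.v x| + a := by
  rw [mem_ball_iff_norm'] at hy
  calc ‖x - y‖ = ‖(x - ft D.v x) + (ft D.v x - y)‖ := by congr 1; abel
    _ ≤ _ := (norm_add_le _ _).trans (add_le_add (norm_sub_ft hv x) hy.le)

namespace Dat.Ok

variable (O : D.Ok K lam C1 rs) (B : D.Bas)
include O

theorem h_lipOn (hl : lam ≤ 3) : LipschitzOnWith 3 D.h (Ici 1) :=
  (convex_Ici 1).lipschitzOnWith_of_nnnorm_hasDerivWithin_le (f' := D.hd)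
    (fun r hr => (O.hpos r (one_pos.trans_le hr)).2.2.1.hasDerivWithinAt) fun r hr => by
      have h1 := O.hd_le hl hr
      have h2 := (O.hpos r (one_pos.trans_le hr)).2.1.trans ((div_le_one (one_pos.trans_le hr)).2 hr)
      rw [← NNReal.coe_le_coe, coe_nnnorm, Real.norm_eq_abs]
      push_cast; linarith

include B

theorem U_lip (hl : lam ≤ 3) : LocallyLipschitzOn D.Om D.U := by
  have key : ∀ {v : EE n → ℝ}, Sd D.β v D.ρm D.M D.Om →
      LocallyLipschitzOn D.Om fun x => D.h (rt D.β v D.ρm x) := fun {v} S => by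
    have h1 : LocallyLipschitzOn D.Om fun x => (ph D.β v D.ρm x)⁻¹ :=
      ll_comp (S.sc.locLip B.op) (F := fun s : ℝ => s⁻¹) fun x hx =>
        contDiffAt_inv ℝ (inv_ne_zero (by linarith [S.eight hx]))
    simp only [ph, inv_inv] at h1
    exact ll_comp_on h1 (fun r _ => ⟨3, Ici 1, self_mem_nhdsWithin, O.h_lipOn hl⟩)
      fun x hx => show (1 : ℝ) ≤ _ by linarith [S.eight hx]
  have mx : ∀ {a b : EE n → ℝ}, LocallyLipschitzOn D.Om a → LocallyLipschitzOn D.Om b →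
      LocallyLipschitzOn D.Om fun x => max (a x) (b x) := fun ha hb =>
    ll_lip (ll_prod ha hb) (F := fun z : ℝ × ℝ => max z.1 z.2)
      (LipschitzWith.prod_fst.max LipschitzWith.prod_snd)
  exact mx ((key B.p).add (key B.m))
    (ll_mul (ll_of_contDiffAt fun _ _ => contDiffAt_const) (mx (key B.p) (key B.m)))

theorem lu_lip (hl : lam ≤ 3) : LocallyLipschitzOn D.Om D.lu :=
  ll_comp (O.U_lip B hl) fun _ hx => Real.contDiffAt_log.2 (O.U_pos B hx).ne'

/-- `U` dominates `ph0` unless both are below `1 / f0` -/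
theorem U_ge (hx : x ∈ D.Om) (h : 2 / D.f0 ≤ ph0 D.v x) : 3 / 16 * ph0 D.v x ≤ D.U x := by
  have p0 := B.ph x
  have f0 := one_pos.trans_le O.f1
  have h1 := B.min_le hx
  have h3 : 0 < min (D.rp x) (D.rm x) := lt_min (by linarith [B.rp8 hx]) (by linarith [B.rm8 hx])
  have h2 : 2 * (1 / ph0 D.v x) ≤ D.f0 := by
    rw [mul_one_div, div_le_iff₀ p0]; rw [div_le_iff₀ f0] at h; linarith
  refine le_trans (le_of_eq ?_) ((O.hlow _ (by positivity) h2).1.trans
    ((O.h_anti h3 h1).trans (O.hmin_le_U B hx)))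
  field_simp; norm_num

/-- near the boundary of the valid set `U` is in the top range -/
theorem U_top (hf : 4 * D.M ≤ D.f0) (hx : x ∈ D.Om) (h : 1 / (2 * D.M) ≤ ph0 D.v x) :
    3 / (32 * D.M) ≤ D.U x := by
  have M0 : 0 < D.M := one_pos.trans_le B.M1
  have h1 : 2 / D.f0 ≤ 1 / (2 * D.M) := by
    rw [div_le_div_iff₀ (by linarith) (by positivity)]; linarith
  refine le_trans ?_ (O.U_ge B hx (h1.trans h))
  calc 3 / (32 * D.M) = 3 / 16 * (1 / (2 * D.M)) := by field_simp; norm_num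
    _ ≤ _ := by gcongr

theorem Z_top (hf : 4 * D.M ≤ D.f0) (h : 1 / (2 * D.M) ≤ ph0 D.v x) : D.Z x = 1 := by
  by_cases hx : x ∈ D.Om
  · rw [O.Z_eq B hx, O.ztop _ (O.U_top B hf hx h)]
  · exact if_neg hx

theorem meas_wf (C : ℝ) : Measurable (D.wf C) := by
  classical
  refine (measurable_const.max ?_).const_mul C
  exact ContinuousOn.measurable_piecewise (f := fun y => min (-D.lu y) (Real.log (D.f0 / 80)))
    (g := fun _ => Real.log (D.M ^ 2)) (ContinuousOn.inf ((O.U_cont B).log fun x hx =>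
      (O.U_pos B hx).ne').neg continuousOn_const) continuousOn_const B.op.measurableSet

variable (N : D.Nm Cf Ct C1)
include N

omit O B in
theorem le_wf (y : EE n) : C1 * Real.log (D.M ^ 2) ≤ D.wf C1 y :=
  mul_le_mul_of_nonneg_left (le_max_left _ _) (by linarith [N.c1])

omit O B in
theorem wf_nonneg (y : EE n) : 0 ≤ D.wf C1 y :=
  (mul_nonneg (by linarith [N.c1]) (Real.log_nonneg (one_le_pow₀ (by linarith [N.M9])))).trans
    (le_wf N y)

omit O B in
theorem wf_le (y : EE n) : D.wf C1 y ≤ C1 * Real.log (D.f0 / 80) := by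
  have h1 : Real.log (D.M ^ 2) ≤ Real.log (D.f0 / 80) :=
    Real.log_le_log (by have := N.M9; positivity) (by linarith [N.f0])
  refine mul_le_mul_of_nonneg_left (max_le h1 ?_) (by linarith [N.c1])
  split_ifs
  · exact min_le_right _ _
  · exact h1

theorem wf_le' (y : EE n) :
    D.wf C1 y ≤ C1 * max (Real.log (D.M ^ 2)) (Real.log (6 * (1 / ph0 D.v y))) := by
  refine mul_le_mul_of_nonneg_left (max_le (le_max_left _ _) ?_) (by linarith [N.c1])
  have p0 := B.ph y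
  have f0 := one_pos.trans_le O.f1
  split_ifs with h
  · refine le_max_of_le_right ?_
    rcases le_total (2 / D.f0) (ph0 D.v y) with h1 | h1
    · refine (min_le_left _ _).trans ?_
      have h2 := O.U_ge B h h1
      have h3 := O.U_pos B h
      rw [Dat.lu, ← Real.log_inv]
      refine Real.log_le_log (by positivity) ?_
      rw [mul_one_div, inv_eq_one_div, div_le_div_iff₀ h3 p0]; linarith
    · refine (min_le_right _ _).trans (Real.log_le_log (by positivity) ?_)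
      rw [le_div_iff₀ f0] at h1
      rw [mul_one_div, div_le_div_iff₀ (by norm_num) p0]; linarith
  · exact le_max_left _ _

omit O in
theorem rho_le (x y : EE n) : 1 / ph0 D.v y ≤ Cf * (1 + ‖x - y‖) ^ 2 * (1 / ph0 D.v x) := by
  have h := (N.cmp y x).1
  rw [norm_sub_rev] at h
  rw [mul_one_div, div_le_div_iff₀ (B.ph y) (B.ph x), one_mul]; exact h

omit O B in
/-- the useful consequences of the numerical hypothesis -/
theorem num {ρ : ℝ} (h : D.M ≤ ρ) : 3 ≤ 3 + D.C2 * Real.log ρ ∧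
    16 * Cf ^ 2 * (3 + D.C2 * Real.log ρ) ^ 4 ≤ ρ ∧ Ct * (3 + D.C2 * Real.log ρ) ≤ ρ ∧
    (96 * Cf * C1 ^ 2) ^ 2 < ρ := by
  have h0 := N.big ρ h
  have l0 := one_lt_log (N.M9.trans h)
  have c1 := N.c1
  have c2 := N.c2
  have f1 := N.f1
  have t1 := N.t1
  have h1 : 3 ≤ 3 + D.C2 * Real.log ρ := le_add_of_nonneg_right (mul_nonneg (by linarith) (by linarith))
  generalize 3 + D.C2 * Real.log ρ = l at *
  have l1 : 1 ≤ l := by linarith
  have a1 : 1 ≤ Cf ^ 2 := one_le_pow₀ f1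
  have a2 : 1 ≤ C1 ^ 4 := one_le_pow₀ c1
  refine ⟨h1, le_trans ?_ h0, le_trans ?_ h0, lt_of_lt_of_le ?_ h0⟩
  · calc _ = 16 * Cf ^ 2 * 1 * 1 * l ^ 4 := by ring
      _ ≤ _ := by gcongr <;> norm_num
  · calc _ = 1 * 1 * Ct * 1 * l ^ 1 := by ring
      _ ≤ _ := by gcongr <;> norm_num
  · calc _ = 9216 * Cf ^ 2 * 1 * C1 ^ 4 * 1 ^ 6 := by ring
      _ < 10000 * Cf ^ 2 * 1 * C1 ^ 4 * 1 ^ 6 := by gcongr; norm_num
      _ ≤ _ := by gcongr

/-- shallow flat points are valid -/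
theorem band_mem (h1 : |dd D.v y| < 3) (h2 : ph0 D.v y < 1 / D.M) : y ∈ D.Om := by
  have M9 := N.M9
  have h3 : D.M ≤ 1 / ph0 D.v y := ((lt_one_div (by linarith) (B.ph y)).2 h2).le
  have h4 := one_lt_log (M9.trans h3)
  refine ⟨h2, by nlinarith [N.c1, N.c2], ?_⟩
  nlinarith [N.f0, O.rm, O.f1]

omit O in
/-- the foot is shallow -/
theorem dd_ft (hx : x ∈ D.Om) : |dd D.v (ft D.v x)| ≤ 1 ∧ |dd D.v x| * Bn D.v x ≤ 1 := by
  have p0 := B.ph x
  obtain ⟨a0, a1, -, -⟩ := num N (B.rho hx).le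
  have h1 : |dd D.v x| ≤ 3 + D.C2 * Real.log (1 / ph0 D.v x) := by linarith [hx.2.1]
  generalize 3 + D.C2 * Real.log (1 / ph0 D.v x) = l at *
  have f1 := N.f1
  have d0 := abs_nonneg (dd D.v x)
  have h2 : 2 * Cf * l ^ 2 * ph0 D.v x ≤ 1 := by
    rw [le_div_iff₀ p0] at a1
    refine le_trans ?_ a1
    gcongr ?_ * _
    calc _ = 2 * Cf ^ 1 * l ^ 2 := by ring
      _ ≤ _ := by gcongr <;> first | linarith | norm_num
  have h3 : |dd D.v x| * (Cf * ph0 D.v x) ≤ Cf * l ^ 2 * ph0 D.v x := by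
    calc _ = Cf * |dd D.v x| * ph0 D.v x := by ring
      _ ≤ _ := by gcongr; nlinarith
  refine ⟨?_, (mul_le_mul_of_nonneg_left (N.cmp x x).2.2 d0).trans (by nlinarith)⟩
  have h4 := abs_tay_ph0 B.sol (-(dd D.v x • nn D.v x)) x
  have e : tay (dd D.v) (-(dd D.v x • nn D.v x)) x = dd D.v x * tt D.v x - dd D.v (ft D.v x) := by
    rw [tay, ← inner_grad, ← sub_eq_add_neg, inner_neg_right, real_inner_smul_right, nn,
      real_inner_self_eq_norm_sq, tt, ft, nn]
    ring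
  have h5 : ‖-(dd D.v x • nn D.v x)‖ ≤ l := by
    rw [norm_neg, norm_smul]
    exact (mul_le_of_le_one_right (norm_nonneg _) (B.sol.norm_grad_dd_le x)).trans h1
  have h6 : ph0 D.v x / 2 * ‖-(dd D.v x • nn D.v x)‖ ^ 2 ≤ Cf * l ^ 2 * ph0 D.v x := by
    calc _ ≤ ph0 D.v x / 2 * l ^ 2 := by gcongr
      _ ≤ _ := by nlinarith [mul_nonneg (sq_nonneg l) p0.le]
  have h7 : |dd D.v x * tt D.v x| ≤ Cf * l ^ 2 * ph0 D.v x := by
    rw [abs_mul, abs_of_nonneg (B.sol.tt_nonneg x)]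
    exact (mul_le_mul_of_nonneg_left (N.cmp x x).2.1 d0).trans h3
  rw [e] at h4
  have h8 := abs_sub_abs_le_abs_sub (dd D.v (ft D.v x)) (dd D.v x * tt D.v x)
  rw [abs_sub_comm] at h8
  linarith

omit O in
theorem dd_near (hx : x ∈ D.Om) {a : ℝ} (hy : y ∈ ball (ft D.v x) a) : |dd D.v y| < 1 + a := by
  have h1 := B.sol.abs_dd_sub_le y (ft D.v x)
  have h2 := abs_sub_abs_le_abs_sub (dd D.v y) (dd D.v (ft D.v x))
  linarith [(dd_ft B N hx).1, mem_ball_iff_norm.1 hy]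

/-- `w` near the foot of a valid point -/
theorem wf_near (hx : x ∈ D.Om) (hy : y ∈ ball (ft D.v x) 2) :
    D.wf C1 y ≤ 2 * C1 * Real.log (1 / ph0 D.v x) := by
  have r1 := (B.rho hx).le
  obtain ⟨a0, a1, -, -⟩ := num N r1
  have M9 := N.M9
  have f1 := N.f1
  have h1 : 1 + ‖x - y‖ ≤ 3 + D.C2 * Real.log (1 / ph0 D.v x) := by
    linarith [hx.2.1, norm_sub_near B.sol hy]
  have h2 := rho_le B N x y
  have py := B.ph y
  refine (O.wf_le' B N y).trans ?_
  rw [mul_comm 2, mul_assoc, show 2 * Real.log (1 / ph0 D.v x) = Real.log ((1 / ph0 D.v x) ^ 2) by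
    rw [Real.log_pow]; norm_num]
  refine mul_le_mul_of_nonneg_left (max_le (Real.log_le_log (by positivity) (by gcongr))
    (Real.log_le_log (by positivity) ?_)) (by linarith [N.c1])
  generalize 3 + D.C2 * Real.log (1 / ph0 D.v x) = l at *
  generalize 1 / ph0 D.v x = ρ at *
  have h3 : Cf * (1 + ‖x - y‖) ^ 2 * ρ ≤ Cf * l ^ 2 * ρ := by gcongr; linarith
  have h4 : 6 * (Cf * l ^ 2) ≤ ρ := by
    refine le_trans ?_ a1
    calc _ = 6 * Cf ^ 1 * l ^ 2 := by ring
      _ ≤ _ := by gcongr <;> first | linarith | norm_num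
  nlinarith

theorem wf_lip (hl : lam ≤ 3) : LocallyLipschitzOn {y | |dd D.v y| < 3} (D.wf C1) := by
  have M9 := N.M9
  refine ll_glue (a := C1 * Real.log (D.M ^ 2)) B.op (g := fun y => C1 * max (Real.log (D.M ^ 2))
    (min (-D.lu y) (Real.log (D.f0 / 80)))) ?_ (fun y hy => by rw [Dat.wf, if_pos hy])
    fun y hy hn => ?_
  · exact ll_mul (ll_of_contDiffAt fun _ _ => contDiffAt_const)
      (ll_lip (O.lu_lip B hl) (F := fun s : ℝ => max (Real.log (D.M ^ 2))
        (min (-s) (Real.log (D.f0 / 80)))) ((LipschitzWith.id.neg.min_const _).const_max _))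
  · have h1 : 1 / (2 * D.M) < ph0 D.v y := by
      refine lt_of_lt_of_le ?_ (not_lt.1 fun h => hn (O.band_mem B N hy h))
      exact one_div_lt_one_div_of_lt (by linarith) (by linarith)
    filter_upwards [(continuous_ph0 B.sol).continuousAt.eventually (lt_mem_nhds h1)] with z hz
    rw [Dat.wf]
    split_ifs with h
    · have h2 := O.U_top B (by nlinarith [N.f0]) h hz.le
      rw [max_eq_left ((min_le_left _ _).trans ?_)]
      rw [Dat.lu, ← Real.log_inv]
      refine Real.log_le_log (inv_pos.2 (O.U_pos B h)) ?_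
      rw [inv_le_comm₀ (O.U_pos B h) (by positivity)]
      refine le_trans ?_ h2
      rw [inv_eq_one_div, div_le_div_iff₀ (by positivity) (by positivity)]
      nlinarith
    · rw [max_self]

end Dat.Ok

end

end Crest.Agent.N067.M
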