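import Crest.Agent.N067.H.Th

/-!
# Row 67, block MI (helper39): `D.cut` is admissible; support, gradient of the depth, test function
-/

set_option autoImplicit false
set_option linter.dupNamespace false

open MeasureTheory InnerProductSpace Topology Filter Set Metric
open scoped RealInnerProductSpace Gradient ContDiff ENNReal

namespace Crest.Agent.N067.M

open Crest.Agent.R077 Crest.Agent.N067.V

noncomputable section

variable {n : ℕ}

/-- the conclusion of `ThatStmt` -/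
def ThC (φ : ContDiffBump (0 : EE n)) (C : ℝ) : Prop :=
  ∀ (v w : EE n → ℝ) (A : ℝ), Sol v → Measurable w → (∀ y, |w y| ≤ A) →
    ContDiff ℝ 1 (That φ v w) ∧ ∀ x,
      (∀ (y : EE n) (a : ℝ), ‖ft v x - ft v y‖ ≤ 1 → (∀ y' ∈ ball (ft v x) 2, |w y'| ≤ a) →
        |That φ v w x - That φ v w y| ≤ C * a * ‖ft v x - ft v y‖) ∧
      (∃ y ∈ ball (ft v x) 1, That φ v w x ≤ w y) ∧ (∃ y ∈ ball (ft v x) 1, w y ≤ That φ v w x) ∧
      (LocallyLipschitzOn (ball (ft v x) 2) w → |dd v x| * Bn v x ≤ 1 →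
        ENNReal.ofReal (‖∇ (That φ v w) x‖ ^ 2) ≤
          ENNReal.ofReal C * ∫⁻ y in ball (ft v x) 1, ENNReal.ofReal (gsq w y))

/-- universal constants and the threshold for `M` -/
theorem exists_nm {n : ℕ} (φ : ContDiffBump (0 : EE n)) (hφ : φ.rOut ≤ 1) :
    ∃ Cf Ct : ℝ, 1 ≤ Ct ∧ ThC φ Ct ∧ ∀ C1 C2 : ℝ, 1 ≤ C1 → 3 * C1 ≤ C2 →
    ∃ M0 : ℝ, 11 ≤ M0 ∧ ∀ D : Dat n, PS D.v → D.C2 = C2 → M0 ≤ D.M → 80 * D.M ^ 2 ≤ D.f0 →
      D.Nm Cf Ct C1 := by
  obtain ⟨Cf, f1, hf⟩ := (fl n).cmp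
  obtain ⟨Ct, t1, ht⟩ := that n φ hφ
  refine ⟨Cf, Ct, t1, ht, fun C1 C2 h1 h2 => ?_⟩
  obtain ⟨M0, h3, h4⟩ := exists_polylog (10000 * Cf ^ 2 * Ct * C1 ^ 4) C2
  refine ⟨M0, h3, fun D hv e hM h5 => ⟨f1, t1, h1, e ▸ h2, h3.trans hM, h5,
    fun ρ hρ => e ▸ h4 ρ (hM.trans hρ), fun x y => ⟨(hf _ hv x y).1, (hf _ hv x y).2.1, ?_⟩⟩⟩
  simpa using (hf _ hv x x).2.2.2

open Classical in
/-- `|∇ log U|²` on the range where `w` is not constant -/
def Dat.gX (D : Dat n) (y : EE n) : ℝ≥0∞ :=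
  if y ∈ D.Om ∧ 80 / D.f0 ≤ D.U y ∧ D.U y ≤ 1 / D.M ^ 2 then ENNReal.ofReal (gsq D.lu y) else 0

variable {D : Dat n} {K lam C1 rs Cf Ct : ℝ} {x y : EE n} {φ : ContDiffBump (0 : EE n)}

theorem Dat.Bas.cut (B : D.Bas) (φ : ContDiffBump (0 : EE n)) (C1 : ℝ) : (D.cut φ C1).Bas :=
  ⟨B.pos, B.ph, B.M1, B.p, B.m⟩

theorem Dat.Bas.triv (B : D.Bas) (C1 : ℝ) : (D.triv C1).Bas := ⟨B.pos, B.ph, B.M1, B.p, B.m⟩

theorem Dat.Nm.cut (N : D.Nm Cf Ct C1) (φ : ContDiffBump (0 : EE n)) : (D.cut φ C1).Nm Cf Ct C1 :=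
  ⟨N.f1, N.t1, N.c1, N.c2, N.M9, N.f0, N.big, N.cmp⟩

/-- the four fields of `Ok` about `Th` for the trivial depth -/
theorem triv_fields (D : Dat n) (hv : Sol D.v) (h1 : 0 ≤ C1) (hf : 1 ≤ D.f0) :
    Measurable (D.triv C1).Th ∧ (∀ x ∈ (D.triv C1).In,
      C1 / 2 * Real.log (min (1 / ph0 D.v x) D.f0) ≤ (D.triv C1).Th x) ∧
    (∀ x, (D.triv C1).Th x ≤ C1 * Real.log D.f0) ∧
    ∀ x ∈ (D.triv C1).In, ∀ y, ‖ft D.v x - ft D.v y‖ ≤ 1 →
      |(D.triv C1).Th x - (D.triv C1).Th y| ≤ ‖ft D.v x - ft D.v y‖ / ph0 D.v x := by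
  refine ⟨measurable_const, fun x _ => ?_, fun _ => le_rfl, fun x _ y _ => ?_⟩
  · have h2 := Real.log_nonneg hf
    have h3 : Real.log (min (1 / ph0 D.v x) D.f0) ≤ Real.log D.f0 := by
      rcases (le_min (one_div_nonneg.2 (ph0_nonneg hv x)) (zero_le_one.trans hf)).eq_or_lt with e | e
      · rw [← e, Real.log_zero]; exact h2
      · exact Real.log_le_log e (min_le_right _ _)
    change _ ≤ C1 * Real.log D.f0
    nlinarith
  · have := ph0_nonneg hv x
    simp only [Dat.triv, sub_self, abs_zero]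
    positivity

namespace Dat.Ok

variable (O : D.Ok K lam C1 rs) (B : D.Bas) (N : D.Nm Cf Ct C1) (T : ThC φ Ct)
include O B N T

theorem thc : ContDiff ℝ 1 (D.cut φ C1).Th ∧ ∀ x,
    (∀ (y : EE n) (a : ℝ), ‖ft D.v x - ft D.v y‖ ≤ 1 →
      (∀ y' ∈ ball (ft D.v x) 2, |D.wf C1 y'| ≤ a) →
        |(D.cut φ C1).Th x - (D.cut φ C1).Th y| ≤ Ct * a * ‖ft D.v x - ft D.v y‖) ∧
      (∃ y ∈ ball (ft D.v x) 1, (D.cut φ C1).Th x ≤ D.wf C1 y) ∧
      (∃ y ∈ ball (ft D.v x) 1, D.wf C1 y ≤ (D.cut φ C1).Th x) ∧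
      (LocallyLipschitzOn (ball (ft D.v x) 2) (D.wf C1) → |dd D.v x| * Bn D.v x ≤ 1 →
        ENNReal.ofReal (‖∇ (D.cut φ C1).Th x‖ ^ 2) ≤
          ENNReal.ofReal Ct * ∫⁻ y in ball (ft D.v x) 1, ENNReal.ofReal (gsq (D.wf C1) y)) :=
  T D.v (D.wf C1) _ B.sol (O.meas_wf B C1) fun y => by
    rw [abs_of_nonneg (wf_nonneg N y)]; exact wf_le N y

theorem cut_cd : ContDiff ℝ 1 (D.cut φ C1).Th := (O.thc B N T).1

theorem cut_ge (x : EE n) : C1 * Real.log (D.M ^ 2) ≤ (D.cut φ C1).Th x :=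
  let ⟨y, _, h⟩ := ((O.thc B N T).2 x).2.2.1
  (le_wf N y).trans h

theorem cut_le (x : EE n) : (D.cut φ C1).Th x ≤ C1 * Real.log (D.f0 / 80) :=
  let ⟨y, _, h⟩ := ((O.thc B N T).2 x).2.1
  h.trans (wf_le N y)

theorem cut_le' (x : EE n) : (D.cut φ C1).Th x ≤ C1 * Real.log D.f0 := by
  have f0 := one_pos.trans_le O.f1
  exact (O.cut_le B N T x).trans (mul_le_mul_of_nonneg_left
    (Real.log_le_log (by positivity) (by linarith)) (by linarith [N.c1]))

theorem cut_lo (hx : x ∈ D.Om) :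
    C1 / 2 * Real.log (min (1 / ph0 D.v x) D.f0) ≤ (D.cut φ C1).Th x := by
  obtain ⟨y, hy, h⟩ := ((O.thc B N T).2 x).2.2.1
  refine le_trans ?_ h
  have r1 := (B.rho hx).le
  obtain ⟨a0, a1, -, -⟩ := num N r1
  have M9 := N.M9
  have f1 := N.f1
  have f0 := N.f0
  have h1 : 1 + ‖y - x‖ ≤ 3 + D.C2 * Real.log (1 / ph0 D.v x) := by
    rw [norm_sub_rev]; linarith [hx.2.1, norm_sub_near B.sol hy]
  have h2 := rho_le B N y x
  have py : 0 < 1 / ph0 D.v y := one_div_pos.2 (B.ph y)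
  have m0 : 0 < min (1 / ph0 D.v x) D.f0 := lt_min (by linarith) (by nlinarith)
  -- `ρ(x) ≤ ρ(y)² / 16`
  have h3 : 1 / ph0 D.v x ≤ (1 / ph0 D.v y / 4) ^ 2 := by
    generalize 3 + D.C2 * Real.log (1 / ph0 D.v x) = l at *
    generalize 1 / ph0 D.v x = ρ at *
    generalize 1 / ph0 D.v y = σ at *
    have h4 : ρ ≤ Cf * l ^ 2 * σ := h2.trans (by gcongr)
    have h5 : ρ ^ 2 ≤ (Cf * l ^ 2 * σ) ^ 2 := by gcongr; linarith
    have h6 : 16 * Cf ^ 2 * l ^ 4 * σ ^ 2 ≤ ρ * σ ^ 2 := by gcongr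
    have h7 : ρ * (16 * ρ) ≤ ρ * σ ^ 2 := by nlinarith
    have := le_of_mul_le_mul_left h7 (by linarith)
    nlinarith
  have key : ∀ a : ℝ, 0 < a → min (1 / ph0 D.v x) D.f0 ≤ a ^ 2 →
      1 / 2 * Real.log (min (1 / ph0 D.v x) D.f0) ≤ Real.log a := fun a _ h4 => by
    have := Real.log_le_log m0 h4
    rw [Real.log_pow] at this
    push_cast at this; linarith
  rw [show C1 / 2 = C1 * (1 / 2) by ring, mul_assoc]
  refine mul_le_mul_of_nonneg_left ?_ (by linarith [N.c1])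
  split_ifs with hy'
  · refine le_max_of_le_right (le_min ?_ (key _ (by nlinarith) ((min_le_right _ _).trans ?_)))
    · have u0 := O.U_pos B hy'
      rw [Dat.lu, ← Real.log_inv]
      refine key _ (inv_pos.2 u0) ?_
      have h4 := B.le_min hy'
      have h5 : 0 < min (D.rp y) (D.rm y) := lt_min (by linarith [B.rp8 hy']) (by linarith [B.rm8 hy'])
      have h6 : min (D.rp y) (D.rm y) / 2 ≤ (D.U y)⁻¹ := by
        have := (O.U_le B hy').trans (mul_le_mul_of_nonneg_left (O.hpos _ h5).2.1 zero_le_two)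
        rw [le_inv_comm₀ (by positivity) u0, inv_div]
        rwa [mul_one_div] at this
      rcases min_le_iff.1 (le_refl (min D.ρm (1 / ph0 D.v y / 2))) with e | e
      · have h7 : D.ρm / 2 ≤ (D.U y)⁻¹ := by linarith
        have h9 : 2 ≤ D.f0 := by nlinarith
        have h8 : D.f0 ≤ D.ρm / 2 := by nlinarith [O.rm]
        refine (min_le_right _ _).trans ?_
        nlinarith [O.f1]
      · have h7 : 1 / ph0 D.v y / 4 ≤ (D.U y)⁻¹ := by linarith
        exact (min_le_left _ _).trans (h3.trans (by gcongr))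
    · have : 6400 ≤ D.f0 := by nlinarith
      nlinarith
  · have h4 : 1 / ph0 D.v y ≤ D.M := by
      rw [one_div_le (B.ph y) (by linarith)]
      exact not_lt.1 fun h5 => hy' (O.band_mem B N (by linarith [dd_near B N hx hy]) h5)
    refine le_max_of_le_left (key _ (by positivity) ((min_le_left _ _).trans (h3.trans ?_)))
    gcongr
    nlinarith

theorem cut_lip (hx : x ∈ D.Om) (hy : ‖ft D.v x - ft D.v y‖ ≤ 1) :
    |(D.cut φ C1).Th x - (D.cut φ C1).Th y| ≤ ‖ft D.v x - ft D.v y‖ / ph0 D.v x := by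
  refine (((O.thc B N T).2 x).1 y (2 * C1 * Real.log (1 / ph0 D.v x)) hy fun y' h => by
    rw [abs_of_nonneg (wf_nonneg N y')]; exact O.wf_near B N hx h).trans ?_
  obtain ⟨-, -, a2, -⟩ := num N (B.rho hx).le
  have l0 := one_lt_log (N.M9.trans (B.rho hx).le)
  rw [div_eq_mul_one_div ‖_‖, mul_comm ‖_‖]
  refine mul_le_mul_of_nonneg_right (le_trans (mul_le_mul_of_nonneg_left ?_
    (by linarith [N.t1])) a2) (norm_nonneg _)
  nlinarith [N.c1, N.c2]

/-- **the data with the true cut are admissible** -/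
theorem cut_ok : (D.cut φ C1).Ok K lam C1 rs :=
  { O with
    Tmeas := (O.cut_cd B N T).continuous.measurable
    Tlo := fun _ hx => O.cut_lo B N T hx.1
    Thi := O.cut_le' B N T
    Tlip := fun _ hx _ hy => O.cut_lip B N T hx.1 hy }

/-- flat points above the cut are valid -/
theorem mem_Om (h1 : |dd D.v x| ≤ (D.cut φ C1).Th x + 1) (h2 : ph0 D.v x < 1 / D.M) :
    x ∈ D.Om := by
  have M9 := N.M9
  have c1 := N.c1
  have c2 := N.c2
  have f1 := N.f1
  have r1 : D.M ≤ 1 / ph0 D.v x := ((lt_one_div (by linarith) (B.ph x)).2 h2).le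
  obtain ⟨-, -, -, a3⟩ := num N r1
  have l0 := one_lt_log (M9.trans r1)
  refine ⟨h2, ?_, ?_⟩
  · obtain ⟨y, hy, h⟩ := ((O.thc B N T).2 x).2.1
    have h3 := h1.trans (add_le_add_left (h.trans (O.wf_le' B N y)) 1)
    have d0 := abs_nonneg (dd D.v x)
    have h4 : 1 / ph0 D.v y ≤ Cf * (2 + |dd D.v x|) ^ 2 * (1 / ph0 D.v x) :=
      (rho_le B N x y).trans (by
        have := (B.ph x).le
        gcongr Cf * ?_ ^ 2 * _
        linarith [norm_sub_near B.sol hy])
    have py : 0 < 1 / ph0 D.v y := one_div_pos.2 (B.ph y)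
    generalize 1 / ph0 D.v x = ρ at *
    generalize |dd D.v x| = d at *
    have h5 : 3 * C1 * Real.log ρ ≤ D.C2 * Real.log ρ := by gcongr
    rcases max_choice (Real.log (D.M ^ 2)) (Real.log (6 * (1 / ph0 D.v y))) with e | e <;>
      rw [e] at h3
    · have h6 : Real.log (D.M ^ 2) ≤ 2 * Real.log ρ := by
        rw [Real.log_pow]; push_cast; gcongr
      nlinarith
    · have h6 : Real.log (6 * (1 / ph0 D.v y)) ≤
          Real.log (96 * Cf * C1 ^ 2) + 2 * Real.log ((2 + d) / (4 * C1)) + Real.log ρ := by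
        rw [show 2 * Real.log ((2 + d) / (4 * C1)) = Real.log (((2 + d) / (4 * C1)) ^ 2) by
          rw [Real.log_pow]; norm_num, ← Real.log_mul (by positivity) (by positivity),
          ← Real.log_mul (by positivity) (by linarith)]
        refine Real.log_le_log (by positivity) (le_trans (by gcongr) (le_of_eq
          (show 6 * (Cf * (2 + d) ^ 2 * ρ) = _ by field_simp; ring)))
      have h7 := Real.log_le_sub_one_of_pos (x := (2 + d) / (4 * C1)) (by positivity)
      have h8 : 2 * Real.log (96 * Cf * C1 ^ 2) < Real.log ρ := by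
        have := Real.log_lt_log (by positivity) a3
        rwa [Real.log_pow] at this
      have h9 : C1 * ((2 + d) / (4 * C1)) = (2 + d) / 4 := by field_simp
      have h10 : C1 * Real.log ((2 + d) / (4 * C1)) ≤ (2 + d) / 4 - C1 := by
        rw [← h9]; nlinarith
      nlinarith
  · have h3 := O.cut_le B N T x
    have f0 := N.f0
    have h4 := Real.log_le_sub_one_of_pos (x := D.f0 / 80) (by nlinarith)
    have h5 : C1 ≤ D.f0 := by
      have a4 := (num N (le_refl D.M)).2.2.2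
      have : C1 ≤ 96 * Cf * C1 ^ 2 := by nlinarith
      nlinarith
    have h6 : C1 * Real.log (D.f0 / 80) ≤ D.f0 * (D.f0 / 80) := by
      refine (mul_le_mul_of_nonneg_left (h4.trans (sub_le_self _ zero_le_one)) (by linarith)).trans ?_
      gcongr; nlinarith
    nlinarith [O.rm]

theorem isClosed_Supp : IsClosed (D.cut φ C1).Supp :=
  (isClosed_le B.sol.dd_sm.continuous.abs ((O.cut_cd B N T).continuous.add continuous_const)).inter
    (isClosed_le (continuous_ph0 B.sol) continuous_const)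

theorem Supp_sub : (D.cut φ C1).Supp ⊆ (D.cut φ C1).In := fun _ hx =>
  ⟨O.mem_Om B N T hx.1 (hx.2.trans_lt (one_div_lt_one_div_of_lt (by linarith [N.M9])
    (show D.M < 2 * D.M by linarith [N.M9]))), hx.1⟩

omit T in
theorem mem_Supp (hx : x ∈ (D.cut φ C1).In) (h : D.U x < 3 / (32 * D.M)) :
    x ∈ (D.cut φ C1).Supp :=
  ⟨hx.2, le_of_not_gt fun h1 => h.not_ge (O.U_top B (by nlinarith [N.f0, N.M9]) hx.1 h1.le)⟩

/-- a crude bound of the gradient of the depth -/
theorem grad_Th_bd (hx : x ∈ D.Om) :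
    ‖∇ (D.cut φ C1).Th x‖ ≤ Ct * (C1 * Real.log (D.f0 / 80)) * 4 := by
  have a0 : 0 ≤ Ct * (C1 * Real.log (D.f0 / 80)) :=
    mul_nonneg (by linarith [N.t1]) ((wf_nonneg N x).trans (wf_le N x))
  rw [norm_grad]
  refine norm_fderiv_le_of_lip' ℝ (by positivity) ?_
  have h1 := ((ft_cd B.sol).differentiable (by simp) x).hasFDerivAt.isLittleO.bound one_pos
  have h2 : ∀ᶠ y in 𝓝 x, ‖ft D.v x - ft D.v y‖ < 1 :=
    ((continuous_const.sub (ft_cd B.sol).continuous).norm.continuousAt (x := x)).eventually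
      (gt_mem_nhds (by simp))
  filter_upwards [h1, h2] with y h1 h2
  rw [norm_sub_rev, Real.norm_eq_abs]
  refine (((O.thc B N T).2 x).1 y _ h2.le fun y' _ => by
    rw [abs_of_nonneg (wf_nonneg N y')]; exact wf_le N y').trans ?_
  rw [mul_assoc _ 4]
  gcongr
  have h3 := (fderiv ℝ (ft D.v) x).le_opNorm (y - x)
  have h4 : ‖fderiv ℝ (ft D.v) x‖ * ‖y - x‖ ≤ 3 * ‖y - x‖ := by
    gcongr; linarith [norm_fderiv_ft B.sol x, (dd_ft B N hx).2]
  have h5 := norm_sub_norm_le (ft D.v y - ft D.v x) (fderiv ℝ (ft D.v) x (y - x))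
  rw [norm_sub_rev]
  linarith

omit T in
theorem gsq_wf (hl : lam ≤ 3) : ∀ᵐ y, |dd D.v y| < 3 →
    ENNReal.ofReal (gsq (D.wf C1) y) ≤ ENNReal.ofReal (C1 ^ 2) * D.gX y := by
  have M9 := N.M9
  have f0 := one_pos.trans_le O.f1
  have c0 : 0 ≤ C1 := by linarith [N.c1]
  have zero : ∀ (y : EE n) (a : ℝ), (∀ᶠ z in 𝓝 y, D.wf C1 z = a) →
      ENNReal.ofReal (gsq (D.wf C1) y) ≤ ENNReal.ofReal (C1 ^ 2) * D.gX y := fun y a h => by
    have : gsq (D.wf C1) y = 0 := by
      simp only [gsq, pdv_congr (show D.wf C1 =ᶠ[𝓝 y] fun _ => a from h), pdv_const]; simp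
    rw [this]; simp
  filter_upwards [ae_diff B.op (O.lu_lip B hl)] with y hd hy
  by_cases h : y ∈ D.Om
  · have cU : ContinuousAt D.U y := (O.U_cont B).continuousAt (B.op.mem_nhds h)
    by_cases h1 : 80 / D.f0 ≤ D.U y
    · by_cases h2 : D.U y ≤ 1 / D.M ^ 2
      · rw [Dat.gX, if_pos ⟨h, h1, h2⟩, ← ENNReal.ofReal_mul (by positivity), gsq_eq, gsq_eq,
          ← mul_pow]
        refine ENNReal.ofReal_le_ofReal (pow_le_pow_left₀ (norm_nonneg _) ?_ 2)
        rw [norm_grad, norm_grad]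
        refine le_of_forall_pos_le_add fun ε hε => ?_
        refine norm_fderiv_le_of_lip' ℝ (by positivity) ?_
        have h3 := (hd h).hasFDerivAt.isLittleO.bound (c := ε / (C1 + 1)) (by positivity)
        filter_upwards [h3, B.op.mem_nhds h] with z h3 hz
        have h4 : |D.wf C1 z - D.wf C1 y| ≤ C1 * |D.lu z - D.lu y| := by
          rw [Dat.wf, Dat.wf, if_pos hz, if_pos h, ← mul_sub, abs_mul, abs_of_nonneg c0]
          refine mul_le_mul_of_nonneg_left ?_ c0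
          have := ((LipschitzWith.id.neg.min_const (Real.log (D.f0 / 80))).const_max
            (Real.log (D.M ^ 2))).dist_le_mul (D.lu z) (D.lu y)
          simpa only [Real.dist_eq, NNReal.coe_one, one_mul, Pi.neg_apply, id] using this
        have h5 := (fderiv ℝ D.lu y).le_opNorm (z - y)
        have h6 := norm_sub_norm_le (D.lu z - D.lu y) (fderiv ℝ D.lu y (z - y))
        have h7 : |D.lu z - D.lu y| ≤ (‖fderiv ℝ D.lu y‖ + ε / (C1 + 1)) * ‖z - y‖ := by
          rw [← Real.norm_eq_abs]; linarith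
        have h8 : C1 * (ε / (C1 + 1)) ≤ ε := by
          rw [← mul_div_assoc, div_le_iff₀ (by positivity)]; nlinarith
        rw [Real.norm_eq_abs]
        refine h4.trans ((mul_le_mul_of_nonneg_left h7 c0).trans ?_)
        rw [← mul_assoc, mul_add]
        gcongr
      · refine zero y (C1 * Real.log (D.M ^ 2)) ?_
        filter_upwards [cU.eventually (lt_mem_nhds (not_le.1 h2)), B.op.mem_nhds h] with z h3 hz
        rw [Dat.wf, if_pos hz, max_eq_left ((min_le_left _ _).trans ?_)]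
        rw [Dat.lu, ← Real.log_inv]
        refine Real.log_le_log (inv_pos.2 (O.U_pos B hz)) ?_
        rw [inv_le_comm₀ (O.U_pos B hz) (by positivity), ← one_div]
        exact h3.le
    · refine zero y (C1 * max (Real.log (D.M ^ 2)) (Real.log (D.f0 / 80))) ?_
      filter_upwards [cU.eventually (gt_mem_nhds (not_le.1 h1)), B.op.mem_nhds h] with z h3 hz
      rw [Dat.wf, if_pos hz, min_eq_right]
      rw [Dat.lu, ← Real.log_inv]
      refine Real.log_le_log (by positivity) ?_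
      rw [le_inv_comm₀ (by positivity) (O.U_pos B hz), inv_div]
      exact h3.le
  · refine zero y (C1 * Real.log (D.M ^ 2)) ?_
    have h1 : 1 / (2 * D.M) < ph0 D.v y := by
      refine lt_of_lt_of_le ?_ (not_lt.1 fun h' => h (O.band_mem B N hy h'))
      exact one_div_lt_one_div_of_lt (by linarith) (by linarith)
    filter_upwards [(continuous_ph0 B.sol).continuousAt.eventually (lt_mem_nhds h1)] with z hz
    rw [Dat.wf]
    split_ifs with h'
    · have h2 := O.U_top B (by nlinarith [N.f0]) h' hz.le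
      rw [max_eq_left ((min_le_left _ _).trans ?_)]
      rw [Dat.lu, ← Real.log_inv]
      refine Real.log_le_log (inv_pos.2 (O.U_pos B h')) ?_
      rw [inv_le_comm₀ (O.U_pos B h') (by positivity)]
      refine le_trans ?_ h2
      rw [inv_eq_one_div, div_le_div_iff₀ (by positivity) (by positivity)]
      nlinarith
    · rw [max_self]

/-- **the gradient of the depth** is an average of `|∇ log U|²` at the foot -/
theorem grad_Th (hl : lam ≤ 3) (hx : x ∈ D.Om) : ENNReal.ofReal (‖∇ (D.cut φ C1).Th x‖ ^ 2) ≤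
    ENNReal.ofReal (Ct * C1 ^ 2) * ∫⁻ y in ball (ft D.v x) 1, D.gX y := by
  refine (((O.thc B N T).2 x).2.2.2 ((O.wf_lip B N hl).mono fun y hy => by
    have := dd_near B N hx hy
    exact show |dd D.v y| < 3 by linarith) (dd_ft B N hx).2).trans ?_
  rw [ENNReal.ofReal_mul (by linarith [N.t1]), mul_assoc,
    ← lintegral_const_mul' (ENNReal.ofReal (C1 ^ 2)) _ ENNReal.ofReal_ne_top]
  refine mul_le_mul_right (setLIntegral_mono_ae' (s := ball (ft D.v x) 1) measurableSet_ball ?_) _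
  filter_upwards [O.gsq_wf B N hl] with y hy h
  exact hy (by linarith [dd_near B N hx h])

omit N T in
theorem meas_gX : Measurable D.gX := by
  classical
  have hU : Measurable fun x => if x ∈ D.Om then D.U x else 0 :=
    ContinuousOn.measurable_piecewise (f := D.U) (g := fun _ => 0) (O.U_cont B) continuousOn_const
      B.op.measurableSet
  have e : {y | y ∈ D.Om ∧ 80 / D.f0 ≤ D.U y ∧ D.U y ≤ 1 / D.M ^ 2} =
      D.Om ∩ ({y | 80 / D.f0 ≤ if y ∈ D.Om then D.U y else 0} ∩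
        {y | (if y ∈ D.Om then D.U y else 0) ≤ 1 / D.M ^ 2}) := by
    ext y
    by_cases h : y ∈ D.Om <;> simp [h]
  refine Measurable.ite ?_ ?_ measurable_const
  · rw [e]
    exact B.op.measurableSet.inter ((measurableSet_le measurable_const hU).inter
      (measurableSet_le hU measurable_const))
  · rw [← funext (gin_self D.lu)]
    exact (measurable_gin _ _).ennreal_ofReal

/-- `Z` is locally Lipschitz above the cut -/
theorem Z_lip (hl : lam ≤ 3) (hζ : LocallyLipschitzOn (Ioi 0) D.ζ) :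
    LocallyLipschitzOn {x | |dd D.v x| ≤ (D.cut φ C1).Th x + 1} D.Z := by
  have M9 := N.M9
  refine ll_glue (a := 1) B.op (g := fun x => D.ζ (D.U x))
    (ll_comp_on (O.U_lip B hl) hζ fun x hx => O.U_pos B hx) (fun x hx => O.Z_eq B hx)
    fun x hx hn => ?_
  have h1 : 1 / (2 * D.M) < ph0 D.v x := by
    refine lt_of_lt_of_le ?_ (not_lt.1 fun h' => hn (O.mem_Om B N T hx h'))
    exact one_div_lt_one_div_of_lt (by linarith) (by linarith)
  filter_upwards [(continuous_ph0 B.sol).continuousAt.eventually (lt_mem_nhds h1)] with z hz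
  exact O.Z_top B (by nlinarith [N.f0]) hz.le

omit N T in
/-- absolute lower bound of `Z` -/
theorem exp_le_Z (hl : lam ≤ 3) (y : EE n) : Real.exp (-(12 / ph0 D.v y)) ≤ D.Z y := by
  have p0 := B.ph y
  by_cases h : y ∈ D.Om
  · have h1 := B.min_le h
    have h2 : 8 ≤ min (D.rp y) (D.rm y) := le_min (B.rp8 h) (B.rm8 h)
    have h3 := O.h_lip hl (r := 1) (s := min (D.rp y) (D.rm y)) (A := 2 * (1 / ph0 D.v y) - 1)
      le_rfl (by linarith) (by linarith) (by linarith)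
    have h4 := (O.hlow 1 one_pos O.f1).1
    have h5 : Real.exp (-(6 / ph0 D.v y)) ≤
        Real.exp (-(3 * (2 * (1 / ph0 D.v y) - 1))) * D.h 1 := by
      rw [show -(3 * (2 * (1 / ph0 D.v y) - 1)) = -(6 / ph0 D.v y) + 3 by ring, Real.exp_add,
        mul_assoc]
      refine le_mul_of_one_le_right (Real.exp_pos _).le ?_
      nlinarith [Real.add_one_le_exp (3 : ℝ)]
    have h6 := O.sq_le_z B.M1 (Real.exp_pos _).le (Real.exp_le_one_iff.2 (by
      have : 0 < 6 / ph0 D.v y := by positivity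
      linarith)) (h5.trans (h3.trans (O.hmin_le_U B h)))
    rw [O.Z_eq B h]
    refine le_trans (le_of_eq ?_) h6
    rw [← Real.exp_nat_mul]; congr 1; push_cast; ring
  · rw [Dat.Z, if_neg h]
    refine Real.exp_le_one_iff.2 ?_
    have : 0 < 12 / ph0 D.v y := by positivity
    linarith

/-- **`z = Z W` is an admissible test function** -/
theorem test_ZW (hl : lam ≤ 3) (hζ : LocallyLipschitzOn (Ioi 0) D.ζ) (hK : 12 ≤ K) {T2 : ℝ}
    (hT : T2 ≤ C1 * Real.log (D.M ^ 2)) (hW : ∃ A : ℝ, ∀ x, D.W x ≤ A * ((1 + ‖x‖) ^ 10)⁻¹) :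
    Test D.v T2 K fun x => D.Z x * D.W x where
  pos x := mul_pos (O.Z_mem B x).1 (O.Wpos x)
  meas := (O.meas_Z B).mul O.Wcd.continuous.measurable
  lip := ll_mul ((O.Z_lip B N T hl hζ).mono fun x hx => by
      have := O.cut_ge B N T x
      have hx : |dd D.v x| < T2 := hx
      exact show |dd D.v x| ≤ (D.cut φ C1).Th x + 1 by linarith) (ll_of_contDiffAt fun _ _ => O.Wcd.contDiffAt)
  dec := hW.imp fun _ h x _ => (mul_le_of_le_one_left (O.Wpos x).le (O.Z_mem B x).2).trans (h x)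
  cmp x y _ _ := by
    have p0 := B.ph y
    have h1 : 1 ≤ Real.exp (K / ph0 D.v y) * D.Z y := by
      calc (1 : ℝ) = Real.exp (12 / ph0 D.v y) * Real.exp (-(12 / ph0 D.v y)) := by
            rw [← Real.exp_add]; simp
        _ ≤ _ := by gcongr; exact O.exp_le_Z B hl y
    have h2 : 0 ≤ K * (1 + ‖x - y‖) ^ K * D.W y := (O.Wpos x).le.trans (O.Wcmp x y)
    calc _ ≤ D.W x := mul_le_of_le_one_left (O.Wpos x).le (O.Z_mem B x).2
      _ ≤ _ := O.Wcmp x y
      _ ≤ (Real.exp (K / ph0 D.v y) * D.Z y) * (K * (1 + ‖x - y‖) ^ K * D.W y) :=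
          le_mul_of_one_le_left h2 h1
      _ = _ := by ring

end Dat.Ok

end

end Crest.Agent.N067.M
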