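import Crest.Agent.N067.H.Hardy
import Crest.Agent.N067.Y.Defs

/-!
# Row 67, block MI (helper39): the weight `W = ϱ^(-γ) (1 + |x - c|² / R²)^(-5)`
-/

set_option autoImplicit false

open MeasureTheory Laplacian InnerProductSpace Topology Filter Set
open scoped RealInnerProductSpace Gradient ContDiff

namespace Crest.Agent.N067.H

open Crest.Agent.R077

noncomputable section

variable {n : ℕ} {γ r0 R : ℝ} {I : Finset (Fin n)} {c : EE n}

/-- `1 + |x - c|² / R²` -/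
def oq (c : EE n) (R : ℝ) (x : EE n) : ℝ := 1 + ‖x - c‖ ^ 2 / R ^ 2

/-- the weight -/
def WW (γ : ℝ) (I : Finset (Fin n)) (c : EE n) (r0 R : ℝ) (x : EE n) : ℝ :=
  rh I c r0 x ^ (-γ) * (oq c R x ^ 5)⁻¹

/-- the gradient of `-5 log oq` -/
def V2 (c : EE n) (R : ℝ) (x : EE n) : EE n := (-(10 / (R ^ 2 + ‖x - c‖ ^ 2))) • (x - c)

theorem one_le_oq (c : EE n) (R : ℝ) (x : EE n) : 1 ≤ oq c R x :=
  le_add_of_nonneg_right (by positivity)

theorem oq_pos (c : EE n) (R : ℝ) (x : EE n) : 0 < oq c R x := one_pos.trans_le (one_le_oq c R x)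

theorem cd_oq (c : EE n) (R : ℝ) : ContDiff ℝ ∞ (oq c R) :=
  contDiff_const.add (((contDiff_id.sub contDiff_const).norm_sq ℝ).div_const _)

theorem WW_pos (hr : 0 < r0) (x : EE n) : 0 < WW γ I c r0 R x :=
  mul_pos (Real.rpow_pos_of_pos (rh_pos hr x) _) (inv_pos.2 (pow_pos (oq_pos c R x) 5))

theorem WW_eq (hr : 0 < r0) : WW γ I c r0 R =
    fun x => Real.exp (-γ * lr I c r0 x - 5 * Real.log (oq c R x)) := by
  funext x
  rw [WW, Real.exp_sub, Real.rpow_def_of_pos (rh_pos hr x), lr, mul_comm (-γ), div_eq_mul_inv,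
    show (5 : ℝ) = ((5 : ℕ) : ℝ) by norm_num, ← Real.log_pow, Real.exp_log (pow_pos (oq_pos c R x) 5)]

theorem cd_lW (hr : 0 < r0) :
    ContDiff ℝ ∞ fun x => -γ * lr I c r0 x - 5 * Real.log (oq c R x) :=
  (contDiff_const.mul (cd_lr hr)).sub
    (contDiff_const.mul ((cd_oq c R).log fun x => (oq_pos c R x).ne'))

theorem cd_WW (hr : 0 < r0) : ContDiff ℝ ∞ (WW γ I c r0 R) := by
  rw [WW_eq hr]; exact (cd_lW hr).exp

theorem grad_WW (hr : 0 < r0) (hR : 0 < R) (x : EE n) :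
    ∇ (WW γ I c r0 R) x = WW γ I c r0 R x • ((-γ) • ∇ (lr I c r0) x + V2 c R x) := by
  ext j
  have d1 := (cd_lr (I := I) (c := c) hr).differentiable (by simp) x
  have d2 := (cd_oq c R).differentiable (by simp) x
  have h0 := oq_pos c R x
  have e1 : pdv j (oq c R) x = 2 * (x j - c j) / R ^ 2 := by
    have e : oq c R = fun y => (R ^ 2)⁻¹ * ‖y - c‖ ^ 2 + 1 := funext fun y => by rw [oq]; ring
    rw [e, pdv_add_const, pdv_const_mul (f := fun y => ‖y - c‖ ^ 2)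
      (((contDiff_id.sub contDiff_const).norm_sq ℝ (n := 1)).differentiable (by simp) x),
      pdv_normSq]
    ring
  rw [grad_apply]
  conv_lhs => rw [WW_eq hr]
  rw [pdv_comp (Real.hasDerivAt_exp _) ((cd_lW hr).differentiable (by simp) x),
    pdv_sub (d1.const_mul _) ((d2.log h0.ne').const_mul _), pdv_const_mul d1,
    pdv_const_mul (d2.log h0.ne'), pdv_comp (Real.hasDerivAt_log h0.ne') d2, e1, WW_eq hr]
  simp only [PiLp.smul_apply, PiLp.add_apply, grad_apply, V2, smul_eq_mul, PiLp.sub_apply, oq]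
  field_simp
  ring

theorem norm_V2 (hR : 0 < R) (x : EE n) : ‖V2 c R x‖ = 10 * ‖x - c‖ / (R ^ 2 + ‖x - c‖ ^ 2) := by
  rw [V2, norm_smul, norm_neg, Real.norm_of_nonneg (by positivity)]; ring

theorem norm_V2_le (hR : 0 < R) (x : EE n) : ‖V2 c R x‖ ≤ 5 / R := by
  rw [norm_V2 hR, div_le_div_iff₀ (by positivity) hR]
  nlinarith [sq_nonneg (R - ‖x - c‖)]

theorem norm_V2_le' (hr : 0 < r0) (hR : r0 ≤ R) (x : EE n) :
    ‖V2 c R x‖ ≤ 20 * (rh I c r0 x)⁻¹ := by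
  have hR0 := hr.trans_le hR
  have h1 := rh_le I c hr.le x
  have h2 := rh_pos (I := I) (c := c) hr x
  rw [norm_V2 hR0, ← div_eq_mul_inv, div_le_div_iff₀ (by positivity) h2]
  have h3 := norm_nonneg (x - c)
  have h4 : ‖x - c‖ * rh I c r0 x ≤ ‖x - c‖ * (R + ‖x - c‖) := by gcongr; linarith
  nlinarith [sq_nonneg (R - ‖x - c‖)]

theorem norm_grad_WW (hγ : 0 ≤ γ) (hr : 0 < r0) (hR : r0 ≤ R) (x : EE n) :
    ‖∇ (WW γ I c r0 R) x‖ ≤ (γ + 20) * (rh I c r0 x)⁻¹ * WW γ I c r0 R x := by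
  have h0 := WW_pos (γ := γ) (I := I) (c := c) (R := R) hr x
  rw [grad_WW hr (hr.trans_le hR), norm_smul, Real.norm_of_nonneg h0.le, mul_comm]
  gcongr
  refine (norm_add_le _ _).trans ?_
  rw [norm_smul, norm_neg, Real.norm_of_nonneg hγ, add_mul]
  exact add_le_add (mul_le_mul_of_nonneg_left (norm_grad_lr hr x) hγ) (norm_V2_le' hr hR x)

theorem norm_grad_rh (hr : 0 < r0) (x : EE n) : ‖fderiv ℝ (rh I c r0) x‖ ≤ 1 := by
  have h0 := rh_pos (I := I) (c := c) hr x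
  have e : rh I c r0 = fun x => Real.exp (lr I c r0 x) :=
    funext fun y => (Real.exp_log (rh_pos hr y)).symm
  have d1 := (cd_lr (I := I) (c := c) hr).differentiable (by simp) x
  have h1 := d1.hasFDerivAt.exp.fderiv
  rw [← e] at h1
  rw [h1, norm_smul, ← norm_grad, lr, Real.exp_log h0, Real.norm_of_nonneg h0.le]
  calc _ ≤ rh I c r0 x * (rh I c r0 x)⁻¹ := by gcongr; exact norm_grad_lr hr x
    _ = 1 := mul_inv_cancel₀ h0.ne'

theorem rh_lip (hr : 0 < r0) (x y : EE n) : rh I c r0 x ≤ rh I c r0 y + ‖x - y‖ := by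
  have h := (lipschitzWith_of_nnnorm_fderiv_le (C := 1) (𝕜 := ℝ)
    ((cd_rh (I := I) (c := c) hr).differentiable (by simp))
    fun x => by exact_mod_cast norm_grad_rh hr x).dist_le_mul x y
  rw [Real.dist_eq, dist_eq_norm, NNReal.coe_one, one_mul] at h
  linarith [(abs_le.1 h).2]

theorem rh_mono {r1 : ℝ} (hr : 0 ≤ r0) (h : r0 ≤ r1) (x : EE n) : rh I c r0 x ≤ rh I c r1 x :=
  Real.sqrt_le_sqrt (by gcongr)

/-- enlarging `r0` to `r1` changes `ϱ` by a factor at most two where `ϱ ≥ r1` -/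
theorem rh_le_two {r1 : ℝ} (hr1 : 0 ≤ r1) {x : EE n} (h : r1 ≤ rh I c r0 x) :
    rh I c r1 x ≤ 2 * rh I c r0 x := by
  have h0 := hr1.trans h
  refine (pow_le_pow_iff_left₀ (Real.sqrt_nonneg _) (by positivity) two_ne_zero).1 ?_
  change rh I c r1 x ^ 2 ≤ _
  have h1 := rh_sq (I := I) (c := c) (r0 := r0) x
  have h2 : r1 ^ 2 ≤ rh I c r0 x ^ 2 := by gcongr
  rw [rh_sq, mul_pow]
  nlinarith [sq_nonneg r0, sq_nonneg r1]

theorem oq_le (hR : 1 ≤ R) (x y : EE n) : oq c R y ≤ (1 + ‖x - y‖) ^ 2 * oq c R x := by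
  have hR0 : 0 < R := one_pos.trans_le hR
  have h1 : ‖y - c‖ ≤ ‖x - c‖ + ‖x - y‖ := by
    calc ‖y - c‖ = ‖(x - c) - (x - y)‖ := by congr 1; abel
      _ ≤ _ := norm_sub_le _ _
  have h2 : ‖y - c‖ / R ≤ ‖x - c‖ / R + ‖x - y‖ := by
    refine (div_le_div_of_nonneg_right h1 hR0.le).trans ?_
    rw [add_div]; gcongr; exact div_le_self (norm_nonneg _) hR
  simp only [oq, ← div_pow]
  have h3 : 0 ≤ ‖x - c‖ / R := by positivity
  have h4 : (‖y - c‖ / R) ^ 2 ≤ (‖x - c‖ / R + ‖x - y‖) ^ 2 := by gcongr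
  have h5 := norm_nonneg (x - y)
  generalize ‖x - c‖ / R = a at *
  generalize ‖x - y‖ = D at *
  nlinarith [mul_nonneg h5 (sq_nonneg (a - 1)), mul_nonneg h5 h3, sq_nonneg (a * D)]

theorem WW_cmp (hγ : 0 ≤ γ) (hγ2 : γ ≤ 2) (hr : 1 ≤ r0) (hR : 1 ≤ R) (x y : EE n) :
    WW γ I c r0 R x ≤ (1 + ‖x - y‖) ^ 12 * WW γ I c r0 R y := by
  have hr0 : 0 < r0 := one_pos.trans_le hr
  have hD : 1 ≤ 1 + ‖x - y‖ := le_add_of_nonneg_right (norm_nonneg _)
  have a1 := rh_pos (I := I) (c := c) hr0 x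
  have a2 := rh_pos (I := I) (c := c) hr0 y
  have h1 : rh I c r0 y ≤ (1 + ‖x - y‖) * rh I c r0 x := by
    have := rh_lip (I := I) (c := c) hr0 y x
    rw [norm_sub_rev] at this
    nlinarith [hr.trans (le_rh I c x), norm_nonneg (x - y)]
  have h2 : rh I c r0 x ^ (-γ) ≤ (1 + ‖x - y‖) ^ 2 * rh I c r0 y ^ (-γ) := by
    have h3 : rh I c r0 y ^ γ ≤ (1 + ‖x - y‖) ^ 2 * rh I c r0 x ^ γ := by
      calc _ ≤ ((1 + ‖x - y‖) * rh I c r0 x) ^ γ := by gcongr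
        _ = (1 + ‖x - y‖) ^ γ * rh I c r0 x ^ γ := Real.mul_rpow (by positivity) a1.le
        _ ≤ _ := by
            gcongr
            rw [← Real.rpow_two]; exact Real.rpow_le_rpow_of_exponent_le hD hγ2
    rw [Real.rpow_neg a1.le, Real.rpow_neg a2.le, ← div_eq_mul_inv, le_div_iff₀ (by positivity),
      inv_mul_le_iff₀ (by positivity), mul_comm]
    exact h3
  have b1 := oq_pos c R x
  have b2 := oq_pos c R y
  have h4 : (oq c R x ^ 5)⁻¹ ≤ (1 + ‖x - y‖) ^ 10 * (oq c R y ^ 5)⁻¹ := by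
    rw [← div_eq_mul_inv, le_div_iff₀ (by positivity), inv_mul_le_iff₀ (by positivity)]
    calc _ ≤ ((1 + ‖x - y‖) ^ 2 * oq c R x) ^ 5 := by gcongr; exact oq_le hR x y
      _ = _ := by ring
  calc _ ≤ ((1 + ‖x - y‖) ^ 2 * rh I c r0 y ^ (-γ)) * ((1 + ‖x - y‖) ^ 10 * (oq c R y ^ 5)⁻¹) := by
        unfold WW; gcongr
    _ = _ := by unfold WW; ring

theorem WW_sq (hr : 0 < r0) (x : EE n) :
    WW γ I c r0 R x ^ 2 = rh I c r0 x ^ (-(2 * γ)) * (oq c R x ^ 10)⁻¹ := by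
  have a1 := rh_pos (I := I) (c := c) hr x
  rw [WW, mul_pow, ← Real.rpow_two, ← Real.rpow_mul a1.le, inv_pow, ← pow_mul]
  congr 2; ring

theorem WW_sq_le (hr : 0 < r0) (hR : 0 < R) (x : EE n) :
    WW γ I c r0 R x ^ 2 ≤ 1024 * (rh I c r0 x ^ (-(2 * γ)) * Om c R x) := by
  have a1 := rh_pos (I := I) (c := c) hr x
  have b1 := oq_pos c R x
  have h1 : (1 + ‖x - c‖ / R) ^ 2 ≤ 2 * oq c R x := by
    rw [oq, ← div_pow]; nlinarith [sq_nonneg (‖x - c‖ / R - 1)]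
  rw [WW_sq hr, mul_left_comm]
  gcongr
  rw [Om, ← div_eq_mul_inv, le_div_iff₀ (by positivity), inv_mul_le_iff₀ (by positivity)]
  calc _ = ((1 + ‖x - c‖ / R) ^ 2) ^ 10 := by ring
    _ ≤ (2 * oq c R x) ^ 10 := by gcongr
    _ = _ := by ring

theorem le_WW_sq (hr : 0 < r0) {x : EE n} (hx : x ∈ Metric.ball c R) :
    rh I c r0 x ^ (-(2 * γ)) ≤ 1024 * WW γ I c r0 R x ^ 2 := by
  have a1 := rh_pos (I := I) (c := c) hr x
  have b1 := oq_pos c R x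
  rw [mem_ball_iff_norm] at hx
  have hR : 0 < R := (norm_nonneg _).trans_lt hx
  have h1 : oq c R x ≤ 2 := by
    have : ‖x - c‖ ^ 2 / R ^ 2 ≤ 1 := by
      rw [div_le_one (by positivity)]; gcongr
    rw [oq]; linarith
  rw [WW_sq hr, mul_left_comm]
  refine le_mul_of_one_le_right (by positivity) ?_
  rw [← div_eq_mul_inv, one_le_div (by positivity)]
  calc _ ≤ (2 : ℝ) ^ 10 := by gcongr
    _ = _ := by norm_num

theorem WW_le_one (hγ : 0 ≤ γ) (hr : 1 ≤ r0) (x : EE n) : WW γ I c r0 R x ≤ (oq c R x ^ 5)⁻¹ :=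
  mul_le_of_le_one_left (inv_pos.2 (pow_pos (oq_pos c R x) 5)).le
    (Real.rpow_le_one_of_one_le_of_nonpos (hr.trans (le_rh I c x)) (by linarith))

theorem WW_dec (hγ : 0 ≤ γ) (hr : 1 ≤ r0) (hR : 1 ≤ R) :
    ∃ A : ℝ, 0 < A ∧ ∀ x, WW γ I c r0 R x ≤ A * ((1 + ‖x‖) ^ 10)⁻¹ := by
  have hR0 : 0 < R := one_pos.trans_le hR
  refine ⟨(2 * R ^ 2 * (1 + ‖c‖) ^ 2) ^ 5, by positivity, fun x => (WW_le_one hγ hr x).trans ?_⟩
  have b1 := oq_pos c R x
  have h1 : 1 + ‖x‖ ≤ (1 + ‖c‖) * (1 + ‖x - c‖) := by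
    have : ‖x‖ ≤ ‖x - c‖ + ‖c‖ := by simpa using norm_add_le (x - c) c
    nlinarith [mul_nonneg (norm_nonneg c) (norm_nonneg (x - c))]
  have h2 : (1 + ‖x - c‖) ^ 2 ≤ 2 * R ^ 2 * oq c R x := by
    have e : R ^ 2 * oq c R x = R ^ 2 + ‖x - c‖ ^ 2 := by rw [oq]; field_simp
    have : 1 ≤ R ^ 2 := one_le_pow₀ hR
    nlinarith [sq_nonneg (‖x - c‖ - 1)]
  rw [← div_eq_mul_inv, le_div_iff₀ (by positivity), inv_mul_le_iff₀ (by positivity)]
  calc (1 + ‖x‖) ^ 10 ≤ ((1 + ‖c‖) * (1 + ‖x - c‖)) ^ 10 := by gcongr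
    _ = ((1 + ‖c‖) ^ 2 * (1 + ‖x - c‖) ^ 2) ^ 5 := by ring
    _ ≤ ((1 + ‖c‖) ^ 2 * (2 * R ^ 2 * oq c R x)) ^ 5 := by gcongr
    _ = _ := by ring

theorem integrable_dec (hn : n ≤ 9) : Integrable fun x : EE n => ((1 + ‖x‖) ^ 10)⁻¹ := by
  have h := integrable_one_add_norm (E := EE n) (μ := volume) (r := 10) (by
    rw [finrank_euclideanSpace_fin]
    have : (n : ℝ) ≤ 9 := by exact_mod_cast hn
    linarith)
  refine h.congr (ae_of_all _ fun x => ?_)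
  simp only
  rw [Real.rpow_neg (by positivity), show (10 : ℝ) = ((10 : ℕ) : ℝ) by norm_num, Real.rpow_natCast]

theorem integrable_WW (hn : n ≤ 9) (hγ : 0 ≤ γ) (hr : 1 ≤ r0) (hR : 1 ≤ R) :
    Integrable (WW γ I c r0 R) := by
  obtain ⟨A, -, hA⟩ := WW_dec (I := I) (c := c) hγ hr hR
  have hr0 : 0 < r0 := one_pos.trans_le hr
  exact ((integrable_dec hn).const_mul A).mono' (cd_WW hr0).continuous.aestronglyMeasurable
    (ae_of_all _ fun x => by rw [Real.norm_of_nonneg (WW_pos hr0 x).le]; exact hA x)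

theorem WW_le_one' (hγ : 0 ≤ γ) (hr : 1 ≤ r0) (x : EE n) : WW γ I c r0 R x ≤ 1 :=
  (WW_le_one hγ hr x).trans (inv_le_one_of_one_le₀ (one_le_pow₀ (one_le_oq c R x)))

theorem integrable_WW_sq (hn : n ≤ 9) (hγ : 0 ≤ γ) (hr : 1 ≤ r0) (hR : 1 ≤ R) :
    Integrable fun x => WW γ I c r0 R x ^ 2 := by
  have hr0 : 0 < r0 := one_pos.trans_le hr
  refine (integrable_WW (I := I) (c := c) hn hγ hr hR).mono'
    ((cd_WW hr0).continuous.pow 2).aestronglyMeasurable (ae_of_all _ fun x => ?_)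
  have h0 := WW_pos (γ := γ) (I := I) (c := c) (R := R) hr0 x
  rw [Real.norm_of_nonneg (by positivity), sq]
  exact mul_le_of_le_one_left h0.le (WW_le_one' hγ hr x)

theorem norm_grad_WW_sq (hγ : 0 ≤ γ) (hr : 0 < r0) (hR : r0 ≤ R) (x : EE n) :
    ‖∇ (fun y => WW γ I c r0 R y ^ 2) x‖ ≤
      2 * (γ + 20) * (rh I c r0 x)⁻¹ * WW γ I c r0 R x ^ 2 := by
  have h0 := WW_pos (γ := γ) (I := I) (c := c) (R := R) hr x
  have d1 := (cd_WW (γ := γ) (I := I) (c := c) (R := R) hr).differentiable (by simp) x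
  have e : ∇ (fun y => WW γ I c r0 R y ^ 2) x = (2 * WW γ I c r0 R x) • ∇ (WW γ I c r0 R) x := by
    ext j
    rw [grad_apply, pdv_sq d1, PiLp.smul_apply, grad_apply, smul_eq_mul]
  rw [e, norm_smul, Real.norm_of_nonneg (by positivity)]
  calc _ ≤ 2 * WW γ I c r0 R x * ((γ + 20) * (rh I c r0 x)⁻¹ * WW γ I c r0 R x) := by
        gcongr; exact norm_grad_WW hγ hr hR x
    _ = _ := by ring

/-- `W²` is an SSY weight -/
theorem wt_WW_sq (hn : n ≤ 9) (hγ : 0 ≤ γ) (hr : 1 ≤ r0) (hR : r0 ≤ R) {lam : ℝ}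
    (hl : 2 * (γ + 20) / r0 ≤ lam) : Y.Wt lam fun x => WW γ I c r0 R x ^ 2 := by
  have hr0 : 0 < r0 := one_pos.trans_le hr
  refine ⟨(contDiff_infty.1 (cd_WW hr0) 1).pow 2, fun x => pow_pos (WW_pos hr0 x) 2,
    integrable_WW_sq hn hγ hr (hr.trans hR), fun x => (norm_grad_WW_sq hγ hr0 hR x).trans ?_⟩
  gcongr
  refine le_trans ?_ hl
  rw [div_eq_mul_inv]
  gcongr
  exact le_rh I c x

/-- enlarging `r0` decreases the weight -/
theorem WW_anti (hγ : 0 ≤ γ) (hr : 0 < r0) {r1 : ℝ} (h : r0 ≤ r1) (x : EE n) :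
    WW γ I c r1 R x ≤ WW γ I c r0 R x := by
  have b1 := oq_pos c R x
  unfold WW
  gcongr ?_ * _
  exact Real.rpow_le_rpow_of_nonpos (rh_pos hr x) (rh_mono hr.le h x) (by linarith)

theorem WW_le_four (hγ : 0 ≤ γ) (hγ2 : γ ≤ 2) {r1 : ℝ} (hr1 : 0 < r1) {x : EE n}
    (h : r1 ≤ rh I c r0 x) : WW γ I c r0 R x ≤ 4 * WW γ I c r1 R x := by
  have b1 := oq_pos c R x
  have a1 := hr1.trans_le h
  have a2 := rh_pos (I := I) (c := c) hr1 x
  have h1 : (2 * rh I c r0 x) ^ (-γ) ≤ rh I c r1 x ^ (-γ) :=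
    Real.rpow_le_rpow_of_nonpos a2 (rh_le_two hr1.le h) (by linarith)
  have h2 : (1 : ℝ) ≤ 4 * 2 ^ (-γ) := by
    have : (2 : ℝ) ^ (-2 : ℝ) ≤ 2 ^ (-γ) := Real.rpow_le_rpow_of_exponent_le one_le_two (by linarith)
    rw [Real.rpow_neg zero_le_two, Real.rpow_two] at this
    linarith
  rw [Real.mul_rpow zero_le_two a1.le] at h1
  unfold WW
  rw [← mul_assoc]
  gcongr ?_ * _
  have : 0 < rh I c r0 x ^ (-γ) := by positivity
  nlinarith

end

end Crest.Agent.N067.H
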